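import Vale.Agent.P141.H633.FlowB

/-!
# P141, line (A), the flow matrix moved to the `C` slot

`flowC`: the centred pair `(A, C)` with a symmetric contraction `S x` of the label space between the
two slots.  The matrix is cut into its dyadic spectral classes; in the class `16⁻ʲ` the moving
gauge `P S u` has height `16⁻ʲ` (S4 lemma for heights and masses) and the slot `P c` has energy at
most `L min (1, top potential × rank)`, `rank ≤ 256 ^ (j + 1) tr (S Sᵀ)`.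
-/

namespace Vale.Agent.P141.H633

noncomputable section

open Matrix Finset
open Vale.Agent.P141.PL.H315 (avg avg_nonneg)
open Vale.Agent.P141.H550 (avg_prod avg_comm avg_const avg_congr avg_mono avg_mul_left
  avg_mul_right avg_add avg_sum avg_mul_le_sqrt avg_mul_sq_le)
open Vale.Agent.P141.H769 (sl)
open Vale.Agent.P141.H204 (mo4t)

section num

/-- the product of the two fourth moments in the class `j` -/
theorem class_num {k s L Λ l m D M4 : ℝ} (hk : 0 < k) (hs : 0 ≤ s) (hL : 0 ≤ L) (hΛ : 0 < Λ)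
    (hl : 0 < l) (hm : 0 < m) (j : ℕ) (hM : M4 ≤ k * ((1 / 16) ^ j * (m * √m))) (hD1 : D ≤ L)
    (hD2 : D ≤ L * (Λ * (256 ^ (j + 1) * (m / l)))) :
    √M4 * √(s ^ 2 * D) ≤ (√(k * (m * √m)) * (s * √L)) *
      min ((1 / 2 : ℝ) ^ j) ((2 * √(√(√(Λ * (m / l))))) ^ 2 * 2 ^ j) ^ 2 := by
  have h16 : √((1 / 16 : ℝ) ^ j) = (1 / 4) ^ j := by
    rw [show (1 / 16 : ℝ) = (1 / 4) ^ 2 by norm_num, ← pow_mul, mul_comm 2 j, pow_mul,
      Real.sqrt_sq (by positivity)]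
  have hq : 0 ≤ Λ * (m / l) := by positivity
  have e1 : √M4 ≤ (1 / 4) ^ j * √(k * (m * √m)) := by
    refine (Real.sqrt_le_sqrt hM).trans (le_of_eq ?_)
    rw [show k * ((1 / 16) ^ j * (m * √m)) = (1 / 16) ^ j * (k * (m * √m)) by ring,
      Real.sqrt_mul (by positivity), h16]
  have e2 : √(s ^ 2 * D) ≤ s * √L := by
    refine (Real.sqrt_le_sqrt (mul_le_mul_of_nonneg_left hD1 (sq_nonneg s))).trans (le_of_eq ?_)
    rw [Real.sqrt_mul (sq_nonneg s), Real.sqrt_sq hs]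
  have e3 : √(s ^ 2 * D) ≤ s * √L * (16 * 16 ^ j * √(Λ * (m / l))) := by
    refine (Real.sqrt_le_sqrt (mul_le_mul_of_nonneg_left hD2 (sq_nonneg s))).trans (le_of_eq ?_)
    rw [Real.sqrt_mul (sq_nonneg s), Real.sqrt_sq hs, Real.sqrt_mul hL,
      show Λ * (256 ^ (j + 1) * (m / l)) = (16 * 16 ^ j) ^ 2 * (Λ * (m / l)) by
        rw [mul_pow, ← pow_mul, mul_comm j 2, pow_mul]; norm_num; ring,
      Real.sqrt_mul (sq_nonneg _), Real.sqrt_sq (by positivity)]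
    ring
  have h0 : 0 ≤ √(k * (m * √m)) := Real.sqrt_nonneg _
  have h1 : 0 ≤ s * √L := mul_nonneg hs (Real.sqrt_nonneg _)
  rcases le_total ((1 / 2 : ℝ) ^ j) ((2 * √(√(√(Λ * (m / l))))) ^ 2 * 2 ^ j) with h | h
  · rw [min_eq_left h]
    calc √M4 * √(s ^ 2 * D) ≤ ((1 / 4) ^ j * √(k * (m * √m))) * (s * √L) :=
          mul_le_mul e1 e2 (Real.sqrt_nonneg _) (by positivity)
      _ = _ := by
          rw [← pow_mul, mul_comm j 2, pow_mul]
          norm_num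
          ring
  · rw [min_eq_right h]
    calc √M4 * √(s ^ 2 * D) ≤ ((1 / 4) ^ j * √(k * (m * √m))) *
          (s * √L * (16 * 16 ^ j * √(Λ * (m / l)))) :=
          mul_le_mul e1 e3 (Real.sqrt_nonneg _) (by positivity)
      _ = _ := by
          have e4 : (2 * √(√(√(Λ * (m / l))))) ^ 2 = 4 * √(√(Λ * (m / l))) := by
            rw [mul_pow, Real.sq_sqrt (Real.sqrt_nonneg _)]; norm_num
          have e5 : ((4 * √(√(Λ * (m / l)))) * 2 ^ j) ^ 2 = 16 * √(Λ * (m / l)) * 4 ^ j := by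
            rw [mul_pow, mul_pow, Real.sq_sqrt (Real.sqrt_nonneg _), ← pow_mul, mul_comm j 2,
              pow_mul]
            norm_num
          have e6 : (1 / 4 : ℝ) ^ j * 16 ^ j = 4 ^ j := by rw [← mul_pow]; norm_num
          rw [e4, e5]
          calc _ = √(k * (m * √m)) * (s * √L) * (16 * √(Λ * (m / l)) * ((1 / 4) ^ j * 16 ^ j)) := by
                ring
            _ = _ := by rw [e6]

/-- the end value -/
theorem end_num {k s L Λ l m : ℝ} (hk : 0 ≤ k) (hΛ : 0 ≤ Λ) (hl : 0 < l) (hm : 0 ≤ m) :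
    (√(k * (m * √m)) * (s * √L)) * (4 * (2 * √(√(√(Λ * (m / l)))))) ^ 2 =
      64 * (√k * s * √L * √(√(Λ / l)) * m) := by
  have e1 : (4 * (2 * √(√(√(Λ * (m / l)))))) ^ 2 = 64 * √(√(Λ * (m / l))) := by
    rw [mul_pow, mul_pow, Real.sq_sqrt (Real.sqrt_nonneg _)]; norm_num; ring
  have e2 : √(√(Λ * (m / l))) = √(√(Λ / l)) * √√m := by
    rw [show Λ * (m / l) = (Λ / l) * m by ring, Real.sqrt_mul (by positivity),
      Real.sqrt_mul (Real.sqrt_nonneg _)]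
  have e3 : √(k * (m * √m)) = √k * (√m * √√m) := by
    rw [Real.sqrt_mul hk, Real.sqrt_mul hm]
  have e4 : √m * √√m * √√m = m := by
    rw [mul_assoc, Real.mul_self_sqrt (Real.sqrt_nonneg _), Real.mul_self_sqrt hm]
  rw [e1, e2, e3]
  calc _ = 64 * (√k * s * √L * √(√(Λ / l)) * (√m * √√m * √√m)) := by ring
    _ = _ := by rw [e4]

end num

section flow

variable {ι κ : Type*} [Fintype κ]

/-- one spectral class -/
theorem flowC_class {k s L Λ l m h : ℝ} (hk : 0 < k) (hs : 0 ≤ s) (hL : 0 ≤ L) (hΛ : 0 < Λ)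
    (hl : 0 < l) (hm : 0 < m) (j : ℕ) (hh : h = (1 / 16) ^ j)
    {JJ : Finset ι} {A B : Finset ℤ} {Z0 W3 : ι → Finset ℤ} {G : ι → ℤ × ℤ × ℤ → ℝ}
    (hG : ∀ J ∈ JJ, ∀ (a : κ → ℤ → ℤ → ℝ) (h m : ℝ), 0 ≤ h →
      (∀ x ∈ A, ∀ y ∈ B, ∑ l, a l x y ^ 2 ≤ h ^ 2) →
      (avg A fun x => avg B fun y => ∑ l, a l x y ^ 2) ≤ m →
      mo4t A B (Z0 J) a (G J) ≤ k * (h * (m * √m)))
    {eps : ℤ → ℝ} (heps : ∀ x ∈ A, |eps x| ≤ 1)
    {Cc : ι → ℤ → κ → ℤ → ℤ → ℝ}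
    (hop : ∀ J ∈ JJ, ∀ z ∈ Z0 J, ∀ ψ : κ → ℤ → ℝ,
      (avg (W3 J) fun w => (avg A fun x => ∑ l, Cc J z l x w * ψ l x) ^ 2) ≤
        s ^ 2 * avg A fun x => ∑ l, ψ l x ^ 2)
    {v : ι → κ → ℤ → ℤ → ℝ} {Z : ι → ℤ → ℤ → ℤ → ℝ}
    (hdom : ∀ J ∈ JJ, ∀ z ∈ Z0 J, ∀ x ∈ A, ∀ e : κ → ℝ,
      (avg (W3 J) fun w => (∑ l, e l * Cc J z l x w) ^ 2) ≤
        avg (W3 J) fun w => (∑ l, e l * v J l x w) ^ 2 * Z J z x w ^ 2)
    (hZ : ∀ J ∈ JJ, ∀ x ∈ A, ∀ w ∈ W3 J, (avg (Z0 J) fun z => Z J z x w ^ 2) ≤ L)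
    (hv1 : ∀ J ∈ JJ, ∀ x ∈ A, ∀ w ∈ W3 J, ∑ l, v J l x w ^ 2 ≤ 1)
    (htop : ∀ x ∈ A, ∀ e : κ → ℝ,
      (avg JJ fun J => avg (W3 J) fun w => (∑ l, e l * v J l x w) ^ 2) ≤ Λ * ∑ l, e l ^ 2)
    {P : ℤ → Matrix κ κ ℝ} (h1 : ∀ x ∈ A, (P x)ᵀ = P x) (h2 : ∀ x ∈ A, P x * P x = P x)
    {r : κ → ℤ → ℤ → ℝ} (hr : ∀ x ∈ A, ∀ y ∈ B, ∑ l, r l x y ^ 2 ≤ h ^ 2)
    (hrm : (avg A fun x => avg B fun y => ∑ l, r l x y ^ 2) ≤ m)
    (htr : (avg A fun x => (P x).trace) ≤ 256 ^ (j + 1) * (m / l)) :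
    (avg JJ fun J => avg (Z0 J) fun z => avg B fun y => avg (W3 J) fun w =>
      (∑ l, avg A fun x => sl (r l) (G J) z x y *
        (eps x * (P x *ᵥ fun i => Cc J z i x w) l)) ^ 2) ≤
      (√(k * (m * √m)) * (s * √L)) *
        min ((1 / 2 : ℝ) ^ j) ((2 * √(√(√(Λ * (m / l))))) ^ 2 * 2 ^ j) ^ 2 := by
  -- the two fourth moments at `J`, `z`
  set M4 : ι → ℤ → ℝ := fun J z => avg B fun y => avg B fun y' =>
    (∑ l, avg A fun x => sl (r l) (G J) z x y * sl (r l) (G J) z x y') ^ 2 with hM4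
  set E : ι → ℤ → ℝ := fun J z => avg (W3 J) fun w => avg A fun x =>
    nv (P x *ᵥ fun i => Cc J z i x w) with hE
  have hM40 : ∀ J z, 0 ≤ M4 J z := fun J z =>
    avg_nonneg fun _ _ => avg_nonneg fun _ _ => sq_nonneg _
  have hE0 : ∀ J z, 0 ≤ E J z := fun J z => avg_nonneg fun _ _ => avg_nonneg fun _ _ => nv_nonneg _
  have hh0 : 0 ≤ h := by rw [hh]; positivity
  have step1 : ∀ J ∈ JJ, ∀ z ∈ Z0 J, (avg B fun y => avg (W3 J) fun w =>
      (∑ l, avg A fun x => sl (r l) (G J) z x y *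
        (eps x * (P x *ᵥ fun i => Cc J z i x w) l)) ^ 2) ≤ √(M4 J z) * √(s ^ 2 * E J z) := by
    intro J hJ z hz
    refine (hs4_avg A B (W3 J) (fun l x y => sl (r l) (G J) z x y)
      (fun l x w => eps x * (P x *ᵥ fun i => Cc J z i x w) l)).trans ?_
    refine mul_le_mul_of_nonneg_left (Real.sqrt_le_sqrt ?_) (Real.sqrt_nonneg _)
    exact q_bound A (W3 J) (fun l x w => Cc J z l x w) P eps h1 h2 heps (hop J hJ z hz)
  have step2 : (avg JJ fun J => avg (Z0 J) fun z => avg B fun y => avg (W3 J) fun w =>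
      (∑ l, avg A fun x => sl (r l) (G J) z x y *
        (eps x * (P x *ᵥ fun i => Cc J z i x w) l)) ^ 2) ≤
      √(avg JJ fun J => avg (Z0 J) fun z => M4 J z) *
        √(s ^ 2 * avg JJ fun J => avg (Z0 J) fun z => E J z) := by
    refine (avg_mono fun J hJ => (avg_mono fun z hz => step1 J hJ z hz).trans
      (avg_sqrt_le (fun z _ => hM40 J z) fun z _ => mul_nonneg (sq_nonneg s) (hE0 J z))).trans ?_
    refine (avg_sqrt_le (fun J _ => avg_nonneg fun z _ => hM40 J z) fun J _ =>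
      avg_nonneg fun z _ => mul_nonneg (sq_nonneg s) (hE0 J z)).trans (le_of_eq ?_)
    simp only [avg_mul_left]
  refine step2.trans ?_
  have hMm : (avg JJ fun J => avg (Z0 J) fun z => M4 J z) ≤ k * (h * (m * √m)) :=
    avg_le_const (by positivity) fun J hJ => hG J hJ r h m hh0 hr hrm
  -- the energy of the slot
  have hEz : ∀ J ∈ JJ, (avg (Z0 J) fun z => E J z) ≤
      L * avg (W3 J) fun w => avg A fun x => nv (P x *ᵥ fun i => v J i x w) := by
    intro J hJ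
    calc (avg (Z0 J) fun z => E J z) = avg (Z0 J) fun z => avg A fun x => avg (W3 J) fun w =>
          nv (P x *ᵥ fun i => Cc J z i x w) := avg_congr fun z _ => avg_comm _ _ _
      _ ≤ avg (Z0 J) fun z => avg A fun x => avg (W3 J) fun w =>
          nv (P x *ᵥ fun i => v J i x w) * Z J z x w ^ 2 :=
          avg_mono fun z hz => avg_mono fun x hx =>
            dom_energy (W3 J) (fun i w => Cc J z i x w) (fun i w => v J i x w)
              (fun w => Z J z x w) (P x) (hdom J hJ z hz x hx)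
      _ = avg (W3 J) fun w => avg A fun x => avg (Z0 J) fun z =>
          nv (P x *ᵥ fun i => v J i x w) * Z J z x w ^ 2 := by
          rw [avg_comm, avg_comm (W3 J) A]
          exact avg_congr fun x _ => avg_comm _ _ _
      _ ≤ avg (W3 J) fun w => avg A fun x => L * nv (P x *ᵥ fun i => v J i x w) := by
          refine avg_mono fun w hw => avg_mono fun x hx => ?_
          rw [avg_mul_left, mul_comm]
          exact mul_le_mul_of_nonneg_right (hZ J hJ x hx w hw) (nv_nonneg _)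
      _ = _ := by simp only [avg_mul_left]
  have hD1 : (avg JJ fun J => avg (Z0 J) fun z => E J z) ≤ L := by
    refine avg_le_const hL fun J hJ => (hEz J hJ).trans ?_
    refine (mul_le_mul_of_nonneg_left (b := _) (c := 1) ?_ hL).trans_eq (mul_one L)
    exact avg_le_const zero_le_one fun w hw => avg_le_const zero_le_one fun x hx =>
      (nv_proj_le (h1 x hx) (h2 x hx) _).trans (hv1 J hJ x hx w hw)
  have hD2 : (avg JJ fun J => avg (Z0 J) fun z => E J z) ≤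
      L * (Λ * (256 ^ (j + 1) * (m / l))) := by
    refine (avg_mono hEz).trans ?_
    rw [avg_mul_left]
    refine mul_le_mul_of_nonneg_left ?_ hL
    calc (avg JJ fun J => avg (W3 J) fun w => avg A fun x => nv (P x *ᵥ fun i => v J i x w))
        = avg A fun x => ∑ i, avg JJ fun J => avg (W3 J) fun w =>
            (∑ l, P x i l * v J l x w) ^ 2 := by
          rw [avg_congr fun J _ => avg_comm (W3 J) A _, avg_comm]
          refine avg_congr fun x _ => ?_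
          rw [← avg_sum]
          refine avg_congr fun J _ => ?_
          rw [← avg_sum]
          rfl
      _ ≤ avg A fun x => Λ * (P x).trace := by
          refine avg_mono fun x hx => ?_
          rw [← sum_rows (h1 x hx) (h2 x hx), Finset.mul_sum]
          exact Finset.sum_le_sum fun i _ => htop x hx (P x i)
      _ = Λ * avg A fun x => (P x).trace := avg_mul_left _ _ _
      _ ≤ _ := mul_le_mul_of_nonneg_left htr hΛ.le
  exact class_num hk hs hL hΛ hl hm j (hh ▸ hMm) hD1 hD2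

/-- `(∑ x_j)² ≤ (∑ c_j) ∑ x_j² / c_j` -/
theorem sum_sq_le_weight (n : ℕ) (x c : ℕ → ℝ) (hc : ∀ j, 0 < c j) :
    (∑ j ∈ range n, x j) ^ 2 ≤ (∑ j ∈ range n, c j) * ∑ j ∈ range n, (c j)⁻¹ * x j ^ 2 := by
  refine Finset.sum_sq_le_sum_mul_sum_of_sq_le_mul _ (fun j _ => (hc j).le)
    (fun j _ => mul_nonneg (inv_nonneg.mpr (hc j).le) (sq_nonneg _)) fun j _ => le_of_eq ?_
  rw [← mul_assoc, mul_inv_cancel₀ (hc j).ne', one_mul]

/-- the identity behind the classes, at one `x` -/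
theorem cls_split {P : ℕ → Matrix κ κ ℝ} {S : Matrix κ κ ℝ} {n : ℕ} (h1 : ∀ j, (P j)ᵀ = P j)
    (h2 : ∀ j, P j * P j = P j) (hn : ∑ j ∈ range n, P j * S = S) (c u : κ → ℝ) (g e : ℝ) :
    ∑ j ∈ range n, ∑ i, (((P j * S) *ᵥ u) i * g) * (e * (P j *ᵥ c) i) =
      e * (∑ i, c i * (S *ᵥ u) i) * g := by
  have e1 : ∀ j, ∑ i, (((P j * S) *ᵥ u) i * g) * (e * (P j *ᵥ c) i) =
      e * (c ⬝ᵥ ((P j * S) *ᵥ u)) * g := by
    intro j
    have h3 := proj_dot (h1 j) (h2 j) c (S *ᵥ u)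
    rw [mulVec_mulVec] at h3
    rw [← h3]
    unfold dotProduct
    rw [Finset.mul_sum, Finset.sum_mul]
    exact Finset.sum_congr rfl fun i _ => by ring
  rw [Finset.sum_congr rfl fun j _ => e1 j, ← Finset.sum_mul, ← Finset.mul_sum]
  congr 2
  conv_rhs => rw [← hn]
  have e2 : (∑ j ∈ range n, P j * S) *ᵥ u = ∑ j ∈ range n, (P j * S) *ᵥ u := by
    rw [Matrix.sum_mulVec]
  rw [e2]
  change _ = c ⬝ᵥ ∑ j ∈ range n, (P j * S) *ᵥ u
  rw [dotProduct_sum]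

variable [DecidableEq κ]

/-- **the flow matrix moved to the `C` slot** -/
theorem flowC {k s L Λ l m : ℝ} (hk : 0 < k) (hs : 0 ≤ s) (hL : 0 ≤ L) (hΛ : 0 < Λ)
    (hl : 0 < l) (hm : 0 < m)
    {JJ : Finset ι} {A B : Finset ℤ} {Z0 W3 : ι → Finset ℤ} {G : ι → ℤ × ℤ × ℤ → ℝ}
    (hG : ∀ J ∈ JJ, ∀ (a : κ → ℤ → ℤ → ℝ) (h m : ℝ), 0 ≤ h →
      (∀ x ∈ A, ∀ y ∈ B, ∑ l, a l x y ^ 2 ≤ h ^ 2) →
      (avg A fun x => avg B fun y => ∑ l, a l x y ^ 2) ≤ m →
      mo4t A B (Z0 J) a (G J) ≤ k * (h * (m * √m)))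
    {eps : ℤ → ℝ} (heps : ∀ x ∈ A, |eps x| ≤ 1)
    {Cc : ι → ℤ → κ → ℤ → ℤ → ℝ}
    (hop : ∀ J ∈ JJ, ∀ z ∈ Z0 J, ∀ ψ : κ → ℤ → ℝ,
      (avg (W3 J) fun w => (avg A fun x => ∑ l, Cc J z l x w * ψ l x) ^ 2) ≤
        s ^ 2 * avg A fun x => ∑ l, ψ l x ^ 2)
    {v : ι → κ → ℤ → ℤ → ℝ} {Z : ι → ℤ → ℤ → ℤ → ℝ}
    (hdom : ∀ J ∈ JJ, ∀ z ∈ Z0 J, ∀ x ∈ A, ∀ e : κ → ℝ,
      (avg (W3 J) fun w => (∑ l, e l * Cc J z l x w) ^ 2) ≤
        avg (W3 J) fun w => (∑ l, e l * v J l x w) ^ 2 * Z J z x w ^ 2)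
    (hZ : ∀ J ∈ JJ, ∀ x ∈ A, ∀ w ∈ W3 J, (avg (Z0 J) fun z => Z J z x w ^ 2) ≤ L)
    (hv1 : ∀ J ∈ JJ, ∀ x ∈ A, ∀ w ∈ W3 J, ∑ l, v J l x w ^ 2 ≤ 1)
    (htop : ∀ x ∈ A, ∀ e : κ → ℝ,
      (avg JJ fun J => avg (W3 J) fun w => (∑ l, e l * v J l x w) ^ 2) ≤ Λ * ∑ l, e l ^ 2)
    {S : ℤ → Matrix κ κ ℝ} (hS : ∀ x ∈ A, (S x).IsHermitian)
    (hS1 : ∀ x ∈ A, ∀ e : κ → ℝ, nv (S x *ᵥ e) ≤ nv e)
    {u : ℤ → ℤ → κ → ℝ} (hu : ∀ x ∈ A, ∀ y ∈ B, nv (u x y) ≤ 1)
    (hmass : (avg A fun x => (avg B fun y => nv (S x *ᵥ u x y)) + l * (S x * (S x)ᵀ).trace) ≤ m) :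
    (avg JJ fun J => avg (Z0 J) fun z => avg B fun y => avg (W3 J) fun w =>
      (avg A fun x => eps x * (∑ i, Cc J z i x w * (S x *ᵥ u x y) i) * G J (x, y, z)) ^ 2) ≤
      64 * (√k * s * √L * √(√(Λ / l)) * m) := by
  classical
  have hP : ∀ x, ∃ P : ℕ → Matrix κ κ ℝ, ∃ N : ℕ, x ∈ A → ((∀ j, (P j)ᵀ = P j) ∧
      (∀ j, P j * P j = P j) ∧
      (∀ j e, nv ((P j * S x) *ᵥ e) ≤ ((1 / 16 : ℝ) ^ j) ^ 2 * nv e) ∧
      (∀ j e, nv ((P j * S x) *ᵥ e) ≤ nv (S x *ᵥ e)) ∧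
      (∀ j, (P j).trace ≤ 256 ^ (j + 1) * (S x * (S x)ᵀ).trace) ∧
      ∀ n, N ≤ n → ∑ j ∈ range n, P j * S x = S x) := by
    intro x
    by_cases hx : x ∈ A
    · obtain ⟨P, p1, p2, p3, p4, p5, N, p6⟩ := cls_exists (hS x hx) (hS1 x hx)
      exact ⟨P, N, fun _ => ⟨p1, p2, p3, p4, p5, p6⟩⟩
    · exact ⟨fun _ => 0, 0, fun h => absurd h hx⟩
  choose P N hP using hP
  set n : ℕ := A.sup N with hn
  set r : ℕ → κ → ℤ → ℤ → ℝ := fun j i x y => ((P x j * S x) *ᵥ u x y) i with hr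
  set q : ℝ := 2 * √(√(√(Λ * (m / l)))) with hq
  have hq0 : 0 < q := by
    rw [hq]
    have : 0 < Λ * (m / l) := by positivity
    have := Real.sqrt_pos.mpr (Real.sqrt_pos.mpr (Real.sqrt_pos.mpr this))
    linarith
  set c : ℕ → ℝ := fun j => min ((1 / 2 : ℝ) ^ j) (q ^ 2 * 2 ^ j) with hc
  have hc0 : ∀ j, 0 < c j := fun j => lt_min (by positivity) (by positivity)
  set X : ℕ → ι → ℤ → ℤ → ℤ → ℝ := fun j J z y w =>
    ∑ i, avg A fun x => sl (r j i) (G J) z x y *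
        (eps x * (P x j *ᵥ fun i => Cc J z i x w) i) with hX
  set β : ℝ := √(k * (m * √m)) * (s * √L) with hβ
  have hβ0 : 0 ≤ β := mul_nonneg (Real.sqrt_nonneg _) (mul_nonneg hs (Real.sqrt_nonneg _))
  -- the masses
  have hm1 : (avg A fun x => avg B fun y => nv (S x *ᵥ u x y)) ≤ m := by
    refine le_trans (avg_mono fun x _ => ?_) hmass
    have : 0 ≤ (S x * (S x)ᵀ).trace := by
      unfold Matrix.trace
      refine Finset.sum_nonneg fun i _ => ?_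
      rw [diag_apply, mul_apply]
      exact Finset.sum_nonneg fun k _ => by rw [transpose_apply]; exact mul_self_nonneg _
    have := mul_nonneg hl.le this
    linarith
  have hm2 : (avg A fun x => (S x * (S x)ᵀ).trace) ≤ m / l := by
    rw [le_div_iff₀ hl, ← avg_mul_right]
    refine le_trans (avg_mono fun x _ => ?_) hmass
    have : 0 ≤ avg B fun y => nv (S x *ᵥ u x y) := avg_nonneg fun _ _ => nv_nonneg _
    linarith
  -- one class
  have hcl : ∀ j, (avg JJ fun J => avg (Z0 J) fun z => avg B fun y => avg (W3 J) fun w =>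
      X j J z y w ^ 2) ≤ β * c j ^ 2 := by
    intro j
    refine flowC_class (r := r j) (P := fun x => P x j) (h := (1 / 16) ^ j) hk hs hL hΛ hl hm j
      rfl hG heps hop hdom hZ hv1 htop (fun x hx => (hP x hx).1 j)
      (fun x hx => (hP x hx).2.1 j) (fun x hx y hy => ?_) ?_ ?_
    · refine ((hP x hx).2.2.1 j (u x y)).trans ?_
      calc _ ≤ ((1 / 16 : ℝ) ^ j) ^ 2 * 1 :=
            mul_le_mul_of_nonneg_left (hu x hx y hy) (by positivity)
        _ = _ := mul_one _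
    · exact le_trans (avg_mono fun x hx => avg_mono fun y _ => (hP x hx).2.2.2.1 j (u x y)) hm1
    · refine (avg_mono fun x hx => (hP x hx).2.2.2.2.1 j).trans ?_
      rw [avg_mul_left]
      exact mul_le_mul_of_nonneg_left hm2 (by positivity)
  -- the sum of the classes
  have hid : ∀ J z y w, (avg A fun x =>
      eps x * (∑ i, Cc J z i x w * (S x *ᵥ u x y) i) * G J (x, y, z)) =
      ∑ j ∈ range n, X j J z y w := by
    intro J z y w
    simp only [hX]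
    rw [Finset.sum_congr rfl fun j _ => (avg_sum A Finset.univ _).symm, ← avg_sum]
    refine avg_congr fun x hx => ?_
    have h := hP x hx
    exact (cls_split h.1 h.2.1 (h.2.2.2.2.2 n (Finset.le_sup hx)) (fun i => Cc J z i x w)
      (u x y) (G J (x, y, z)) (eps x)).symm
  have hsum : ∑ j ∈ range n, c j ≤ 4 * q := sum_min_le hq0 n
  have hsum0 : 0 ≤ ∑ j ∈ range n, c j := Finset.sum_nonneg fun j _ => (hc0 j).le
  calc (avg JJ fun J => avg (Z0 J) fun z => avg B fun y => avg (W3 J) fun w =>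
      (avg A fun x => eps x * (∑ i, Cc J z i x w * (S x *ᵥ u x y) i) * G J (x, y, z)) ^ 2)
      ≤ avg JJ fun J => avg (Z0 J) fun z => avg B fun y => avg (W3 J) fun w =>
        (∑ j ∈ range n, c j) * ∑ j ∈ range n, (c j)⁻¹ * X j J z y w ^ 2 := by
        refine avg_mono fun J _ => avg_mono fun z _ => avg_mono fun y _ => avg_mono fun w _ => ?_
        rw [hid]
        exact sum_sq_le_weight n (fun j => X j J z y w) c hc0
    _ = (∑ j ∈ range n, c j) * ∑ j ∈ range n, (c j)⁻¹ *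
        avg JJ fun J => avg (Z0 J) fun z => avg B fun y => avg (W3 J) fun w =>
          X j J z y w ^ 2 := by
        simp only [avg_mul_left, avg_sum]
    _ ≤ (∑ j ∈ range n, c j) * ∑ j ∈ range n, (c j)⁻¹ * (β * c j ^ 2) := by
        refine mul_le_mul_of_nonneg_left (Finset.sum_le_sum fun j _ => ?_) hsum0
        exact mul_le_mul_of_nonneg_left (hcl j) (inv_nonneg.mpr (hc0 j).le)
    _ = β * (∑ j ∈ range n, c j) ^ 2 := by
        have e1 : ∀ j, (c j)⁻¹ * (β * c j ^ 2) = β * c j := by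
          intro j
          field_simp [(hc0 j).ne']
        rw [Finset.sum_congr rfl fun j _ => e1 j, ← Finset.mul_sum]
        ring
    _ ≤ β * (4 * q) ^ 2 :=
        mul_le_mul_of_nonneg_left (pow_le_pow_left₀ hsum0 hsum 2) hβ0
    _ = _ := end_num hk.le hΛ.le hl hm.le

end flow

end

end Vale.Agent.P141.H633
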