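import Vale.Agent.P141.H420.FlowM
import Vale.Agent.P141.H633.FlowC

/-!
# P141, line (A): the flow matrix `S = √l K⁻¹ dK K⁻¹`

* `Sf` the flow matrix; `Sf_herm`, `Sf_contr`: symmetric, contraction;
* `mass2`: `l tr (K⁻¹ dK K⁻¹ G K⁻¹ dK K⁻¹) + l tr (S Sᵀ) ≤ 2 √l (tr K - tr Kb)` (the two masses
  together have the bound of `Nd.mass`);
* `mass2_avg`: the same with the average of `|S u|²`;
* `tree_mass2`: the sum over the tree below a cell is at most `tr G` of the top.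
* `tree_drop`: the same for the drops `2 √l (tr K - tr Kb)`;
* `flowC_node`: `flowC` at a node with node data at every `x`, mass = drop of `2 √l tr K`.
-/

namespace Vale.Agent.P141.H633

open Matrix Finset
open Vale.Agent.P141.H420

noncomputable section

variable {ι : Type*} [Fintype ι] [DecidableEq ι]

/-- **the flow matrix of a node** -/
def Sf (l : ℝ) (K Kp Km : Matrix ι ι ℝ) : Matrix ι ι ℝ := √l • (K⁻¹ * Nd.dK Kp Km * K⁻¹)

variable {l : ℝ} {G D K Kp Km : Matrix ι ι ℝ}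

theorem Sf_herm (h : Nd l G D K Kp Km) : (Sf l K Kp Km).IsHermitian := by
  have hKi := h.pdK.inv.isHermitian
  have hd := h.herm_dK
  unfold Sf
  unfold Matrix.IsHermitian
  rw [conjTranspose_smul, conjTranspose_mul, conjTranspose_mul, hKi.eq, hd.eq, Matrix.mul_assoc]
  simp

theorem Sf_mul_tr (h : Nd l G D K Kp Km) : Sf l K Kp Km * (Sf l K Kp Km)ᵀ =
    l • (K⁻¹ * Nd.dK Kp Km * (K⁻¹ * K⁻¹) * Nd.dK Kp Km * K⁻¹) := by
  rw [tr_symm (Sf_herm h)]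
  unfold Sf
  rw [smul_mul_smul_comm, Real.mul_self_sqrt h.l_pos.le]
  simp only [Matrix.mul_assoc]

omit [DecidableEq ι] in
/-- a quadratic form bound from a matrix inequality -/
theorem nv_mulVec_herm {A : Matrix ι ι ℝ} (hA : A.IsHermitian) (e : ι → ℝ) :
    nv (A *ᵥ e) = e ⬝ᵥ (A * A) *ᵥ e := by
  rw [quad_sq hA, nv_eq]

/-- `l K⁻² ≤ 1` -/
theorem inv_contr (h : Nd l G D K Kp Km) (z : ι → ℝ) : l * nv (K⁻¹ *ᵥ z) ≤ nv z := by
  have hKi := h.pdK.inv.isHermitian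
  have h1 : (K⁻¹ * G * K⁻¹).PosSemidef := by
    have h3 := h.psG.conjTranspose_mul_mul_same (K⁻¹)
    rwa [hKi.eq] at h3
  rw [inv_G_inv h.pdK h.sq] at h1
  have h2 := quad_nonneg h1 z
  rw [sub_mulVec, smul_mulVec, one_mulVec, dotProduct_sub, dotProduct_smul, smul_eq_mul,
    ← nv_mulVec_herm hKi, ← nv_eq] at h2
  linarith

/-- the flow matrix is a contraction -/
theorem Sf_contr (h : Nd l G D K Kp Km) (e : ι → ℝ) : nv (Sf l K Kp Km *ᵥ e) ≤ nv e := by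
  have hl := h.l_pos
  have hKi := h.pdK.inv.isHermitian
  have hd := h.herm_dK
  set d := Nd.dK Kp Km with hdd
  set w : ι → ℝ := K⁻¹ *ᵥ e with hw
  -- `S e = √l K⁻¹ (d w)`
  have e1 : nv (Sf l K Kp Km *ᵥ e) = l * nv (K⁻¹ *ᵥ (d *ᵥ w)) := by
    unfold Sf
    rw [smul_mulVec, ← mulVec_mulVec, ← mulVec_mulVec, ← hw, ← hdd]
    unfold nv
    rw [Finset.mul_sum]
    refine Finset.sum_congr rfl fun i _ => ?_
    rw [Pi.smul_apply, smul_eq_mul, mul_pow, Real.sq_sqrt hl.le]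
  -- `l K⁻² ≤ 1`
  have e2 : l * nv (K⁻¹ *ᵥ (d *ᵥ w)) ≤ nv (d *ᵥ w) := inv_contr h _
  -- `d² = K² - Kb² ≤ K²`
  have e3 : nv (d *ᵥ w) ≤ nv e := by
    have h1 := h.sq_eq
    rw [← hdd] at h1
    have h2 : d * d = K * K - Nd.Kb Kp Km * Nd.Kb Kp Km := by rw [h1]; abel
    rw [nv_mulVec_herm hd, h2, sub_mulVec, dotProduct_sub,
      ← nv_mulVec_herm h.pdK.isHermitian, ← nv_mulVec_herm h.pdb.isHermitian]
    have h3 : K *ᵥ w = e := by rw [hw, mulVec_mulVec, mul_inv_self' h.pdK, one_mulVec]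
    rw [h3]
    have := nv_nonneg (Nd.Kb Kp Km *ᵥ w)
    linarith
  rw [e1]
  exact e2.trans e3

/-- **both masses of the flow term at one node** -/
theorem mass2 (h : Nd l G D K Kp Km) :
    l * (K⁻¹ * Nd.dK Kp Km * K⁻¹ * G * K⁻¹ * Nd.dK Kp Km * K⁻¹).trace +
      l * (Sf l K Kp Km * (Sf l K Kp Km)ᵀ).trace ≤
    2 * √l * (K.trace - (Nd.Kb Kp Km).trace) := by
  have hl := h.l_pos
  have hs : 0 < √l := Real.sqrt_pos.2 hl
  have hKi := h.pdK.inv.isHermitian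
  have hd := h.herm_dK
  rw [Sf_mul_tr h]
  set d := Nd.dK Kp Km with hdd
  set B := Nd.Kb Kp Km with hB
  set T := K - B with hT
  have hTps : T.PosSemidef := h.Kb_le
  have e2 : K⁻¹ * d * K⁻¹ * G * K⁻¹ * d * K⁻¹ =
      K⁻¹ * (d * d) * K⁻¹ - l • (K⁻¹ * d * (K⁻¹ * K⁻¹) * d * K⁻¹) := by
    have h1 : K⁻¹ * d * K⁻¹ * G * K⁻¹ * d * K⁻¹ = K⁻¹ * d * (K⁻¹ * G * K⁻¹) * d * K⁻¹ := by
      simp only [Matrix.mul_assoc]
    rw [h1, inv_G_inv h.pdK h.sq]
    simp only [Matrix.mul_sub, Matrix.sub_mul, Matrix.mul_one, Matrix.mul_smul, Matrix.smul_mul,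
      Matrix.mul_assoc]
  have e4 : d * d = K * T + T * K - T * T := by
    have h1 := h.sq_eq
    rw [← hdd, ← hB] at h1
    have h2 : B = K - T := by rw [hT]; abel
    have h3 : d * d = K * K - B * B := by rw [h1]; abel
    rw [h3, h2]
    simp only [Matrix.mul_sub, Matrix.sub_mul]
    abel
  have e5 : (K⁻¹ * (d * d) * K⁻¹).trace ≤ 2 * (K⁻¹ * T).trace := by
    have h1 : K⁻¹ * (K * T + T * K - T * T) * K⁻¹ = T * K⁻¹ + K⁻¹ * T - K⁻¹ * T * (T * K⁻¹) := by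
      simp only [Matrix.mul_sub, Matrix.sub_mul, Matrix.mul_add, Matrix.add_mul]
      have h2 : K⁻¹ * (K * T) * K⁻¹ = T * K⁻¹ := by
        rw [← Matrix.mul_assoc K⁻¹ K T, inv_mul_self' h.pdK, Matrix.one_mul]
      have h3 : K⁻¹ * (T * K) * K⁻¹ = K⁻¹ * T := by
        rw [Matrix.mul_assoc, Matrix.mul_assoc, mul_inv_self' h.pdK, Matrix.mul_one]
      rw [h2, h3]
      simp only [Matrix.mul_assoc]
    have h4 : (K⁻¹ * T * (T * K⁻¹)).PosSemidef := by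
      have h5 := posSemidef_self_mul_conjTranspose (K⁻¹ * T)
      rwa [conjTranspose_mul, hKi.eq, hTps.isHermitian.eq] at h5
    rw [e4, h1, trace_sub, trace_add, trace_mul_comm T K⁻¹]
    have := h4.trace_nonneg
    linarith
  have e6 : (K⁻¹ * T).trace ≤ (√l)⁻¹ * T.trace := by
    have h1 := trace_mul_nonneg (inv_le hl h.psG h.pdK h.sq) hTps
    rw [Matrix.sub_mul, Matrix.smul_mul, Matrix.one_mul, trace_sub, trace_smul,
      smul_eq_mul] at h1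
    linarith
  have e7 : T.trace = K.trace - B.trace := by rw [hT, trace_sub]
  have e8 : l * (2 * ((√l)⁻¹ * T.trace)) = 2 * √l * (K.trace - B.trace) := by
    rw [e7]
    have h1 : l * (√l)⁻¹ = √l := by
      rw [← div_eq_mul_inv, Real.div_sqrt]
    calc l * (2 * ((√l)⁻¹ * (K.trace - B.trace)))
        = 2 * (l * (√l)⁻¹) * (K.trace - B.trace) := by ring
      _ = _ := by rw [h1]
  have e9 : (K⁻¹ * d * K⁻¹ * G * K⁻¹ * d * K⁻¹).trace +
      (l • (K⁻¹ * d * (K⁻¹ * K⁻¹) * d * K⁻¹)).trace = (K⁻¹ * (d * d) * K⁻¹).trace := by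
    rw [e2, trace_sub]; ring
  calc l * (K⁻¹ * d * K⁻¹ * G * K⁻¹ * d * K⁻¹).trace +
        l * (l • (K⁻¹ * d * (K⁻¹ * K⁻¹) * d * K⁻¹)).trace
      = l * (K⁻¹ * (d * d) * K⁻¹).trace := by rw [← e9]; ring
    _ ≤ l * (2 * ((√l)⁻¹ * T.trace)) := by
        refine mul_le_mul_of_nonneg_left ?_ hl.le
        linarith
    _ = _ := e8

/-- the average of `|S u|²` is the first mass -/
theorem avg_Sf {X : Type*} (h : Nd l G D K Kp Km) (s : Finset X) (c : ℝ) (u : X → ι → ℝ)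
    (hG : G = c • ∑ x ∈ s, vecMulVec (u x) (u x)) :
    c * ∑ x ∈ s, nv (Sf l K Kp Km *ᵥ u x) =
      l * (K⁻¹ * Nd.dK Kp Km * K⁻¹ * G * K⁻¹ * Nd.dK Kp Km * K⁻¹).trace := by
  simp only [nv_eq]
  rw [avg_sq s c u G _ hG, tr_symm (Sf_herm h)]
  unfold Sf
  rw [Matrix.smul_mul, Matrix.smul_mul, Matrix.mul_smul, smul_smul,
    Real.mul_self_sqrt h.l_pos.le, trace_smul, smul_eq_mul]
  simp only [Matrix.mul_assoc]

/-- **both masses of the flow term, averaged form** (`hmass` of `flowC` at one `x`) -/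
theorem mass2_avg {X : Type*} (h : Nd l G D K Kp Km) (s : Finset X) (c : ℝ) (u : X → ι → ℝ)
    (hG : G = c • ∑ x ∈ s, vecMulVec (u x) (u x)) :
    c * ∑ x ∈ s, nv (Sf l K Kp Km *ᵥ u x) + l * (Sf l K Kp Km * (Sf l K Kp Km)ᵀ).trace ≤
      2 * √l * (K.trace - (Nd.Kb Kp Km).trace) := by
  rw [avg_Sf h s c u hG]
  exact mass2 h

/-- **both masses of the flow term on the tree below a cell** -/
theorem tree_mass2 {n : ℕ} {G K : ℕ → ℤ → Matrix ι ι ℝ} (h : Tr l n G K) {k : ℕ}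
    (hk : k ≤ n) (m : ℤ) :
    tsum (fun j i => l * ((K j i)⁻¹ * Nd.dK (K (j - 1) (2 * i)) (K (j - 1) (2 * i + 1)) *
      (K j i)⁻¹ * G j i * (K j i)⁻¹ * Nd.dK (K (j - 1) (2 * i)) (K (j - 1) (2 * i + 1)) *
      (K j i)⁻¹).trace + l * (Sf l (K j i) (K (j - 1) (2 * i)) (K (j - 1) (2 * i + 1)) *
      (Sf l (K j i) (K (j - 1) (2 * i)) (K (j - 1) (2 * i + 1)))ᵀ).trace) k m ≤
      (G k m).trace := by
  have key := tsum_le (f := fun j i => l * ((K j i)⁻¹ *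
      Nd.dK (K (j - 1) (2 * i)) (K (j - 1) (2 * i + 1)) *
      (K j i)⁻¹ * G j i * (K j i)⁻¹ * Nd.dK (K (j - 1) (2 * i)) (K (j - 1) (2 * i + 1)) *
      (K j i)⁻¹).trace + l * (Sf l (K j i) (K (j - 1) (2 * i)) (K (j - 1) (2 * i + 1)) *
      (Sf l (K j i) (K (j - 1) (2 * i)) (K (j - 1) (2 * i + 1)))ᵀ).trace)
    (F := fun j i => 2 * √l * (K j i).trace)
    (b := 2 * √l * (√l * (Fintype.card ι : ℝ))) (n := n) (fun j hj i => ?_) (fun i => ?_) k hk m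
  · refine key.trans ?_
    have h1 := trace_K_le h.l_pos (h.pdK k m) (h.sq k m)
    linarith
  · have h1 := mass2 (h.nd hj i)
    have h2 : (Nd.Kb (K j (2 * i)) (K j (2 * i + 1))).trace =
        (1 / 2) * ((K j (2 * i)).trace + (K j (2 * i + 1)).trace) := by
      rw [trace_smul, trace_add, smul_eq_mul]
    rw [h2] at h1
    simp only [Nat.add_sub_cancel]
    linarith
  · have h1 := sqrt_card_le h.l_pos (h.psG 0 i) (h.pdK 0 i) (h.sq 0 i)
    have h2 : 0 ≤ 2 * √l := by positivity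
    exact mul_le_mul_of_nonneg_left h1 h2

/-- the telescoping form: the drops of `2 √l tr K` on the tree below a cell -/
theorem tree_drop {n : ℕ} {G K : ℕ → ℤ → Matrix ι ι ℝ} (h : Tr l n G K) {k : ℕ}
    (hk : k ≤ n) (m : ℤ) :
    tsum (fun j i => 2 * √l * ((K j i).trace -
      (Nd.Kb (K (j - 1) (2 * i)) (K (j - 1) (2 * i + 1))).trace)) k m ≤ (G k m).trace := by
  have key := tsum_le (f := fun j i => 2 * √l * ((K j i).trace -
      (Nd.Kb (K (j - 1) (2 * i)) (K (j - 1) (2 * i + 1))).trace))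
    (F := fun j i => 2 * √l * (K j i).trace)
    (b := 2 * √l * (√l * (Fintype.card ι : ℝ))) (n := n) (fun j hj i => ?_) (fun i => ?_) k hk m
  · refine key.trans ?_
    have h1 := trace_K_le h.l_pos (h.pdK k m) (h.sq k m)
    linarith
  · have h2 : (Nd.Kb (K j (2 * i)) (K j (2 * i + 1))).trace =
        (1 / 2) * ((K j (2 * i)).trace + (K j (2 * i + 1)).trace) := by
      rw [trace_smul, trace_add, smul_eq_mul]
    simp only [Nat.add_sub_cancel]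
    rw [h2]
    linarith
  · have h1 := sqrt_card_le h.l_pos (h.psG 0 i) (h.pdK 0 i) (h.sq 0 i)
    have h2 : 0 ≤ 2 * √l := by positivity
    exact mul_le_mul_of_nonneg_left h1 h2

section node

open Vale.Agent.P141.PL.H315 (avg avg_nonneg)
open Vale.Agent.P141.H550 (avg_prod avg_comm avg_const avg_congr avg_mono avg_mul_left
  avg_mul_right avg_add avg_sum avg_mul_le_sqrt avg_mul_sq_le)
open Vale.Agent.P141.H834 (UnifP LineB)
open Vale.Agent.P141.H204 (mo4t)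
open Vale.Agent.P141.H703 (mo4t_ht)

variable {κ : Type*} [Fintype κ] [DecidableEq κ]

omit [Fintype ι] [DecidableEq ι] in
/-- **the flow piece of the C-step at one node**: node data of the `A` slot at every `x`, the mass
is the drop of `2 √l tr K` -/
theorem flowC_node {d e s L l Λ : ℝ} (hd : 0 < d) (he : 0 < e) (hs : 0 ≤ s) (hL : 0 ≤ L)
    (hΛ : 0 < Λ) (hl : 0 < l)
    {JJ : Finset ι} {A B : Finset ℤ} (hA : A.Nonempty) (hB : B.Nonempty) {Z0 W3 : ι → Finset ℤ}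
    {G : ι → ℤ × ℤ × ℤ → ℝ}
    (hU : ∀ J ∈ JJ, UnifP d A B (Z0 J) (G J)) (hLB : ∀ J ∈ JJ, LineB e A B (Z0 J) (G J))
    {eps : ℤ → ℝ} (heps : ∀ x ∈ A, |eps x| ≤ 1)
    {Cc : ι → ℤ → κ → ℤ → ℤ → ℝ}
    (hop : ∀ J ∈ JJ, ∀ z ∈ Z0 J, ∀ ψ : κ → ℤ → ℝ,
      (avg (W3 J) fun w => (avg A fun x => ∑ l, Cc J z l x w * ψ l x) ^ 2) ≤
        s ^ 2 * avg A fun x => ∑ l, ψ l x ^ 2)
    {v : ι → κ → ℤ → ℤ → ℝ} {Z : ι → ℤ → ℤ → ℤ → ℝ}
    (hdom : ∀ J ∈ JJ, ∀ z ∈ Z0 J, ∀ x ∈ A, ∀ e : κ → ℝ,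
      (avg (W3 J) fun w => (∑ l, e l * Cc J z l x w) ^ 2) ≤
        avg (W3 J) fun w => (∑ l, e l * v J l x w) ^ 2 * Z J z x w ^ 2)
    (hZ : ∀ J ∈ JJ, ∀ x ∈ A, ∀ w ∈ W3 J, (avg (Z0 J) fun z => Z J z x w ^ 2) ≤ L)
    (hv1 : ∀ J ∈ JJ, ∀ x ∈ A, ∀ w ∈ W3 J, ∑ l, v J l x w ^ 2 ≤ 1)
    (htop : ∀ x ∈ A, ∀ e : κ → ℝ,
      (avg JJ fun J => avg (W3 J) fun w => (∑ l, e l * v J l x w) ^ 2) ≤ Λ * ∑ l, e l ^ 2)
    {u : ℤ → ℤ → κ → ℝ} (hu : ∀ x ∈ A, ∀ y ∈ B, nv (u x y) ≤ 1)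
    {Gm D K Kp Km : ℤ → Matrix κ κ ℝ} (hnd : ∀ x ∈ A, Nd l (Gm x) (D x) (K x) (Kp x) (Km x))
    (hGm : ∀ x ∈ A, Gm x = (B.card : ℝ)⁻¹ • ∑ y ∈ B, vecMulVec (u x y) (u x y)) :
    (avg JJ fun J => avg (Z0 J) fun z => avg B fun y => avg (W3 J) fun w =>
      (avg A fun x => eps x * (∑ i, Cc J z i x w * (Sf l (K x) (Kp x) (Km x) *ᵥ u x y) i) *
        G J (x, y, z)) ^ 2) ≤
      64 * (√(720000 * (d ^ 2 * e)) * s * √L * √(√(Λ / l)) *
        avg A fun x => 2 * √l * ((K x).trace - (Nd.Kb (Kp x) (Km x)).trace)) := by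
  set m : ℝ := avg A fun x => 2 * √l * ((K x).trace - (Nd.Kb (Kp x) (Km x)).trace) with hm
  set F : ℝ := avg JJ fun J => avg (Z0 J) fun z => avg B fun y => avg (W3 J) fun w =>
      (avg A fun x => eps x * (∑ i, Cc J z i x w * (Sf l (K x) (Kp x) (Km x) *ᵥ u x y) i) *
        G J (x, y, z)) ^ 2 with hF
  have hmass : (avg A fun x => (avg B fun y => nv (Sf l (K x) (Kp x) (Km x) *ᵥ u x y)) +
      l * (Sf l (K x) (Kp x) (Km x) * (Sf l (K x) (Kp x) (Km x))ᵀ).trace) ≤ m :=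
    avg_mono fun x hx => mass2_avg (hnd x hx) B (B.card : ℝ)⁻¹ (u x) (hGm x hx)
  have hm0 : 0 ≤ m := by
    refine le_trans (avg_nonneg' fun x _ => ?_) hmass
    have h1 : 0 ≤ avg B fun y => nv (Sf l (K x) (Kp x) (Km x) *ᵥ u x y) :=
      avg_nonneg fun _ _ => nv_nonneg _
    have h2 : 0 ≤ (Sf l (K x) (Kp x) (Km x) * (Sf l (K x) (Kp x) (Km x))ᵀ).trace := by
      unfold Matrix.trace
      refine Finset.sum_nonneg fun i _ => ?_
      rw [diag_apply, mul_apply]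
      exact Finset.sum_nonneg fun k _ => by rw [transpose_apply]; exact mul_self_nonneg _
    have := mul_nonneg hl.le h2
    linarith
  have hk : 0 < 720000 * (d ^ 2 * e) := by positivity
  set c : ℝ := √(720000 * (d ^ 2 * e)) * s * √L * √(√(Λ / l)) with hc
  have hc0 : 0 ≤ c := by positivity
  have key : ∀ ε > 0, F ≤ 64 * (c * (m + ε)) := by
    intro ε hε
    exact flowC (m := m + ε) hk hs hL hΛ hl (by linarith)
      (fun J hJ a h m' hh ha hm' => mo4t_ht hd.le he.le hh hA hB (hU J hJ) (hLB J hJ) a ha hm')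
      heps hop hdom hZ hv1 htop (fun x hx => Sf_herm (hnd x hx))
      (fun x hx e => Sf_contr (hnd x hx) e) hu (hmass.trans (by linarith))
  refine le_of_forall_pos_le_add fun ε hε => ?_
  have h1 := key (ε / (64 * c + 1)) (by positivity)
  refine h1.trans ?_
  have h2 : 64 * (c * (ε / (64 * c + 1))) ≤ ε := by
    rw [show 64 * (c * (ε / (64 * c + 1))) = ε * (64 * c / (64 * c + 1)) by ring]
    calc ε * (64 * c / (64 * c + 1)) ≤ ε * 1 := by
          refine mul_le_mul_of_nonneg_left ?_ hε.le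
          rw [div_le_one (by positivity)]
          linarith
      _ = ε := mul_one _
  calc 64 * (c * (m + ε / (64 * c + 1))) = 64 * (c * m) + 64 * (c * (ε / (64 * c + 1))) := by ring
    _ ≤ _ := by linarith

end node

end

end Vale.Agent.P141.H633
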