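import Vale.Agent.P141.H704.Ando
import Vale.Agent.P141.H186.SqA
import Vale.Agent.P141.H633.TrS

/-!
# P141, line (A): the even part of the light matrix `S = √l K⁻¹`

* `Sl l K = √l K⁻¹`, `del` = mean of the children minus parent, `So` = half difference;
* `del_psd`, `So_sq_le` : `0 ≤ So² ≤ del`;
* `tree_del`, `tree_del_vec` : the sums over the tree below a cell are at most
  `tr G / (2 l)`, `⟪v, G v⟫ / (2 l)`;
* `gram_def` : `avg_x avg_x' tr (Xᵀ M X) ≤ s² avg_x avg_w ⟪c, M c⟫` for the kernel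
  `X = avg_w c ⊗ c'` of a slot of norm at most `s`;
* `top_def` : `avg ⟪c, M c⟫ ≤ L Λ tr M` for a dominated slot with top potential `Λ`.
-/

namespace Vale.Agent.P141.H633

open Matrix Finset
open Vale.Agent.P141.H420

noncomputable section

variable {ι : Type*} [Fintype ι] [DecidableEq ι]

omit [DecidableEq ι] in
theorem smul_form (c : ℝ) (M : Matrix ι ι ℝ) (x : ι → ℝ) :
    x ⬝ᵥ (c • M) *ᵥ x = c * (x ⬝ᵥ M *ᵥ x) := by
  rw [smul_mulVec, dotProduct_smul, smul_eq_mul]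

/-- **the light matrix** -/
def Sl (l : ℝ) (K : Matrix ι ι ℝ) : Matrix ι ι ℝ := √l • K⁻¹

/-- the even part -/
def del (l : ℝ) (K Kp Km : Matrix ι ι ℝ) : Matrix ι ι ℝ :=
  (1 / 2 : ℝ) • (Sl l Kp + Sl l Km) - Sl l K

/-- the odd part -/
def So (l : ℝ) (Kp Km : Matrix ι ι ℝ) : Matrix ι ι ℝ := (1 / 2 : ℝ) • (Sl l Kp - Sl l Km)

variable {l : ℝ} {G D K Kp Km : Matrix ι ι ℝ}

theorem Sl_herm (hK : K.PosDef) : (Sl l K).IsHermitian := by
  unfold Sl Matrix.IsHermitian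
  rw [conjTranspose_smul, hK.inv.isHermitian.eq]
  simp

theorem Sl_psd (hK : K.PosDef) : (Sl l K).PosSemidef :=
  hK.inv.posSemidef.smul (Real.sqrt_nonneg l)

theorem Sl_le_one (hl : 0 < l) (hG : G.PosSemidef) (hK : K.PosDef)
    (h : K * K = l • (1 : Matrix ι ι ℝ) + G) : (1 - Sl l K).PosSemidef := by
  have h1 := (inv_le hl hG hK h).smul (Real.sqrt_nonneg l)
  have hs : √l ≠ 0 := (Real.sqrt_pos.2 hl).ne'
  rw [smul_sub, smul_smul, mul_inv_cancel₀ hs, one_smul] at h1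
  exact h1

theorem Nd_half (h : Nd l G D K Kp Km) :
    K * K = (1 / 2 : ℝ) • (Kp * Kp + Km * Km) := by
  rw [h.sq, h.sqp, h.sqm, show l • (1 : Matrix ι ι ℝ) + (G + D) + (l • (1 : Matrix ι ι ℝ) +
    (G - D)) = (2 : ℝ) • (l • (1 : Matrix ι ι ℝ) + G) by rw [two_smul]; abel, smul_smul]
  norm_num

/-- the form of `del` -/
theorem del_form (h : Nd l G D K Kp Km) (x : ι → ℝ) : 0 ≤ x ⬝ᵥ del l K Kp Km *ᵥ x := by
  have h1 := H704.inv_conv h.pdK h.pdp h.pdm (x := x) (xp := x) (xm := x) (by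
    have := h.Kb_le
    exact this) (by rw [← two_smul ℝ x, smul_smul]; norm_num)
  unfold del Sl
  rw [sub_mulVec, smul_mulVec, add_mulVec, smul_mulVec, smul_mulVec, smul_mulVec,
    dotProduct_sub, dotProduct_smul, dotProduct_add, dotProduct_smul, dotProduct_smul,
    dotProduct_smul]
  simp only [smul_eq_mul]
  have h2 := mul_le_mul_of_nonneg_left h1 (Real.sqrt_nonneg l)
  linarith

theorem del_herm (h : Nd l G D K Kp Km) : (del l K Kp Km).IsHermitian := by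
  have h1 := Sl_herm (l := l) h.pdK
  have h2 := Sl_herm (l := l) h.pdp
  have h3 := Sl_herm (l := l) h.pdm
  unfold del Matrix.IsHermitian
  rw [conjTranspose_sub, conjTranspose_smul, conjTranspose_add, h1.eq, h2.eq, h3.eq]
  simp

theorem del_psd (h : Nd l G D K Kp Km) : (del l K Kp Km).PosSemidef := by
  refine PosSemidef.of_dotProduct_mulVec_nonneg (del_herm h) fun x => ?_
  simpa using del_form h x

/-- `So² ≤ del` -/
theorem So_sq_le (h : Nd l G D K Kp Km) (hp : (G + D).PosSemidef) (hm : (G - D).PosSemidef)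
    (x : ι → ℝ) : nv (So l Kp Km *ᵥ x) ≤ x ⬝ᵥ del l K Kp Km *ᵥ x := by
  have hl := h.l_pos
  have hs : 0 < √l := Real.sqrt_pos.2 hl
  set p : Matrix ι ι ℝ := (1 / 2 : ℝ) • (Sl l Kp + Sl l Km) with hpd
  set o : Matrix ι ι ℝ := So l Kp Km with hod
  set B : Matrix ι ι ℝ := Nd.Kb Kp Km with hB
  have e1 : p + o = Sl l Kp := by
    rw [hpd, hod]; unfold So
    rw [← smul_add, add_add_sub_cancel, ← two_smul ℝ (Sl l Kp), smul_smul]; norm_num
  have e2 : p - o = Sl l Km := by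
    rw [hpd, hod]; unfold So
    rw [← smul_sub, add_sub_sub_cancel, ← two_smul ℝ (Sl l Km), smul_smul]; norm_num
  have e3 : (p + o) * Kp = √l • 1 := by
    rw [e1]; unfold Sl; rw [Matrix.smul_mul, inv_mul_self' h.pdp]
  have e4 : (p - o) * Km = √l • 1 := by
    rw [e2]; unfold Sl; rw [Matrix.smul_mul, inv_mul_self' h.pdm]
  have pp : p.PosDef := by
    have a1 : (Sl l Kp).PosDef := h.pdp.inv.smul hs
    have a2 : (Sl l Km).PosDef := h.pdm.inv.smul hs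
    exact (a1.add a2).smul (by norm_num)
  have oh : o.IsHermitian := by
    have h2 := Sl_herm (l := l) h.pdp
    have h3 := Sl_herm (l := l) h.pdm
    rw [hod]
    unfold So Matrix.IsHermitian
    rw [conjTranspose_smul, conjTranspose_sub, h2.eq, h3.eq]
    simp
  -- `z = o x`, `y = √l Kb⁻¹ x`; `<x, o p⁻¹ o x> = <x, p x> - <x, √l Kb⁻¹ x>`
  have pB := h.pdb
  have d1 : p * B + o * Nd.dK Kp Km = √l • 1 := by
    have : p * B + o * Nd.dK Kp Km = (1 / 2 : ℝ) • ((p + o) * Kp + (p - o) * Km) := by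
      rw [hB]
      simp only [Nd.Kb, Nd.dK, Matrix.mul_smul, Matrix.mul_add, Matrix.mul_sub, Matrix.add_mul,
        Matrix.sub_mul, ← smul_add]
      congr 1
      abel
    rw [this, e3, e4, ← two_smul ℝ (√l • (1 : Matrix ι ι ℝ)), smul_smul]
    norm_num
  have d2 : p * Nd.dK Kp Km + o * B = 0 := by
    have : p * Nd.dK Kp Km + o * B = (1 / 2 : ℝ) • ((p + o) * Kp - (p - o) * Km) := by
      rw [hB]
      simp only [Nd.Kb, Nd.dK, Matrix.mul_smul, Matrix.mul_add, Matrix.mul_sub, Matrix.add_mul,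
        Matrix.sub_mul, ← smul_add]
      congr 1
      abel
    rw [this, e3, e4, sub_self, smul_zero]
  -- `p⁻¹ o = - dK Kb⁻¹`, `o p⁻¹ o = p - √l Kb⁻¹`
  have d3 : p⁻¹ * o = - (Nd.dK Kp Km * B⁻¹) := by
    have q1 : o * B = - (p * Nd.dK Kp Km) := eq_neg_of_add_eq_zero_right d2
    calc p⁻¹ * o = p⁻¹ * (o * B) * B⁻¹ := by
          rw [Matrix.mul_assoc, Matrix.mul_assoc, mul_inv_self' pB, Matrix.mul_one]
      _ = _ := by
          rw [q1, Matrix.mul_neg, Matrix.neg_mul, ← Matrix.mul_assoc, inv_mul_self' pp,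
            Matrix.one_mul]
  have d4 : o * (p⁻¹ * o) = p - √l • B⁻¹ := by
    have q1 : o * Nd.dK Kp Km = √l • 1 - p * B := by rw [← d1]; abel
    rw [d3, Matrix.mul_neg, ← Matrix.mul_assoc, q1, Matrix.sub_mul, Matrix.smul_mul,
      Matrix.one_mul, Matrix.mul_assoc, mul_inv_self' pB, Matrix.mul_one]
    abel
  -- `|z|² ≤ <z, p⁻¹ z>`
  have f1 : nv (o *ᵥ x) ≤ (o *ᵥ x) ⬝ᵥ (p⁻¹ *ᵥ (o *ᵥ x)) := by
    have q1 := H704.inv_ge pp (o *ᵥ x) (o *ᵥ x)
    have q2 : (o *ᵥ x) ⬝ᵥ (p *ᵥ (o *ᵥ x)) ≤ nv (o *ᵥ x) := by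
      set z := o *ᵥ x with hz
      have r1 := quad_nonneg (Sl_le_one hl hp h.pdp h.sqp) z
      have r2 := quad_nonneg (Sl_le_one hl hm h.pdm h.sqm) z
      rw [sub_mulVec, one_mulVec, dotProduct_sub, ← nv_eq] at r1 r2
      rw [hpd, smul_mulVec, add_mulVec, dotProduct_smul, dotProduct_add, smul_eq_mul]
      linarith
    rw [← nv_eq] at q1
    linarith
  have f2 : (o *ᵥ x) ⬝ᵥ (p⁻¹ *ᵥ (o *ᵥ x)) = x ⬝ᵥ p *ᵥ x - √l * (x ⬝ᵥ B⁻¹ *ᵥ x) := by
    have q1 : (o *ᵥ x) ⬝ᵥ (p⁻¹ *ᵥ (o *ᵥ x)) = x ⬝ᵥ (o * (p⁻¹ * o)) *ᵥ x := by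
      rw [← mulVec_mulVec, ← mulVec_mulVec, H704.symm_dot oh]
    rw [q1, d4, sub_mulVec, dotProduct_sub, smul_form (√l) B⁻¹]
  -- `K⁻¹ ≤ Kb⁻¹`
  have f3 : x ⬝ᵥ K⁻¹ *ᵥ x ≤ x ⬝ᵥ B⁻¹ *ᵥ x := by
    have q1 := H704.inv_conv h.pdK pB pB (x := x) (xp := x) (xm := x) (by
      rw [← two_smul ℝ B, smul_smul]
      norm_num
      exact h.Kb_le) (by rw [← two_smul ℝ x, smul_smul]; norm_num)
    linarith
  have f4 := mul_le_mul_of_nonneg_left f3 hs.le
  have f5 : x ⬝ᵥ del l K Kp Km *ᵥ x = x ⬝ᵥ p *ᵥ x - √l * (x ⬝ᵥ K⁻¹ *ᵥ x) := by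
    unfold del
    rw [← hpd, sub_mulVec, dotProduct_sub]
    unfold Sl
    rw [smul_form (√l) K⁻¹]
  rw [f5]
  linarith

/-- `1 - S ≤ G / (2 l)` in trace -/
theorem one_sub_tr (hl : 0 < l) (hK : K.PosDef)
    (h : K * K = l • (1 : Matrix ι ι ℝ) + G) :
    (Fintype.card ι : ℝ) - (Sl l K).trace ≤ G.trace / (2 * l) := by
  have h1 : ∀ i : ι, (1 : ℝ) - Sl l K i i ≤ G i i / (2 * l) := by
    intro i
    have h2 := H186.one_sub_le hK hl h (Pi.single i 1)
    simp only [single_one_dotProduct, mulVec_single_one] at h2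
    simpa [Sl, Matrix.col_apply, Matrix.smul_apply] using h2
  have h3 := Finset.sum_le_sum fun i (_ : i ∈ (Finset.univ : Finset ι)) => h1 i
  rw [Finset.sum_sub_distrib, ← Finset.sum_div] at h3
  simpa [Matrix.trace] using h3

/-- **the sum of the even parts, traces** -/
theorem tree_del {n : ℕ} {G K : ℕ → ℤ → Matrix ι ι ℝ} (h : Tr l n G K) {k : ℕ}
    (hk : k ≤ n) (m : ℤ) :
    tsum (fun j i => (del l (K j i) (K (j - 1) (2 * i)) (K (j - 1) (2 * i + 1))).trace) k m ≤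
      (G k m).trace / (2 * l) := by
  have key := tsum_le (f := fun j i =>
      (del l (K j i) (K (j - 1) (2 * i)) (K (j - 1) (2 * i + 1))).trace)
    (F := fun j i => - (Sl l (K j i)).trace) (b := - (Fintype.card ι : ℝ)) (n := n)
    (fun j _ i => ?_) (fun i => ?_) k hk m
  · refine key.trans ?_
    have h1 := one_sub_tr h.l_pos (h.pdK k m) (h.sq k m)
    linarith
  · simp only [Nat.add_sub_cancel]
    unfold del
    rw [trace_sub, trace_smul, trace_add, smul_eq_mul]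
    linarith
  · have h1 := (Sl_le_one h.l_pos (h.psG 0 i) (h.pdK 0 i) (h.sq 0 i)).trace_nonneg
    rw [trace_sub, trace_one] at h1
    linarith

/-- **the sum of the even parts at a vector** -/
theorem tree_del_vec {n : ℕ} {G K : ℕ → ℤ → Matrix ι ι ℝ} (h : Tr l n G K) {k : ℕ}
    (hk : k ≤ n) (m : ℤ) (v : ι → ℝ) :
    tsum (fun j i => v ⬝ᵥ del l (K j i) (K (j - 1) (2 * i)) (K (j - 1) (2 * i + 1)) *ᵥ v) k m ≤
      (v ⬝ᵥ G k m *ᵥ v) / (2 * l) := by
  have key := tsum_le (f := fun j i =>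
      v ⬝ᵥ del l (K j i) (K (j - 1) (2 * i)) (K (j - 1) (2 * i + 1)) *ᵥ v)
    (F := fun j i => - (v ⬝ᵥ Sl l (K j i) *ᵥ v)) (b := - (v ⬝ᵥ v)) (n := n)
    (fun j _ i => ?_) (fun i => ?_) k hk m
  · refine key.trans ?_
    have h1 := H186.one_sub_le (h.pdK k m) h.l_pos (h.sq k m) v
    have h2 : v ⬝ᵥ Sl l (K k m) *ᵥ v = √l * (v ⬝ᵥ (K k m)⁻¹ *ᵥ v) := by
      unfold Sl
      rw [smul_mulVec, dotProduct_smul, smul_eq_mul]
    rw [h2]
    linarith
  · simp only [Nat.add_sub_cancel]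
    unfold del
    rw [sub_mulVec, smul_mulVec, add_mulVec, dotProduct_sub, dotProduct_smul, dotProduct_add,
      smul_eq_mul]
    linarith
  · have h1 := quad_nonneg (Sl_le_one h.l_pos (h.psG 0 i) (h.pdK 0 i) (h.sq 0 i)) v
    rw [sub_mulVec, one_mulVec, dotProduct_sub] at h1
    linarith

end

end Vale.Agent.P141.H633
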