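import Vale.Agent.P141.H103.PlaneW
import Vale.Agent.P141.H633.DefS

/-!
# P141, line (A), light pair: the tie bookkeeping of the defect

* `tr_conj_le` : `tr (Q M Q) ≤ b tr (M Q)` for `0 ≤ Q ≤ b`, `0 ≤ M`;
* `dline` : plane sums over the family `i` (the points of the fourth variable) of a weight
  `w j n x1 x3` times the square of a slot with line energies in `i`;
* `dGW` : the same for `H103.GW`;
* `dTot` : for the weight `⟪v, del v⟫`: the total over all scales.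
-/

namespace Vale.Agent.P141.H633

open Matrix Finset
open Vale.Agent.P141.PL (iv ix mem_iv ix_ix)
open Vale.Agent.P141.H103 (GW)
open Vale.Agent.P141.H420

noncomputable section

section mat

variable {n : Type*} [Fintype n] [DecidableEq n]

/-- `Q² ≤ b Q` -/
theorem sq_le_smul {Q : Matrix n n ℝ} (hQ : Q.PosSemidef) {b : ℝ}
    (hb : (b • (1 : Matrix n n ℝ) - Q).PosSemidef) : (b • Q - Q * Q).PosSemidef := by
  obtain ⟨ρ, hρ, h2⟩ : ∃ ρ : Matrix n n ℝ, ρ.PosSemidef ∧ ρ * ρ = Q := by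
    have hs := hQ.isHermitian.spectral_theorem
    rw [Unitary.conjStarAlgAut_apply] at hs
    set U : Matrix n n ℝ := (hQ.isHermitian.eigenvectorUnitary : Matrix n n ℝ) with hU
    have hUU : Uᵀ * U = 1 := by
      have h := (Matrix.mem_unitaryGroup_iff').mp hQ.isHermitian.eigenvectorUnitary.2
      rw [star_eq_conjTranspose, conjTranspose_eq_transpose_of_trivial] at h
      exact h
    have hQe : Q = sf U hQ.isHermitian.eigenvalues := by
      unfold sf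
      simpa [star_eq_conjTranspose, conjTranspose_eq_transpose_of_trivial, Function.comp_def, hU]
        using hs
    refine ⟨sf U fun i => √(hQ.isHermitian.eigenvalues i), ?_, ?_⟩
    · have h0 : (diagonal fun i => √(hQ.isHermitian.eigenvalues i)).PosSemidef :=
        PosSemidef.diagonal fun i => Real.sqrt_nonneg _
      have h1 := h0.mul_mul_conjTranspose_same U
      rwa [conjTranspose_eq_transpose_of_trivial] at h1
    · rw [sf_mul hUU]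
      conv_rhs => rw [hQe]
      congr 1
      funext i
      exact Real.mul_self_sqrt (hQ.eigenvalues_nonneg i)
  have h3 : b • Q - Q * Q = ρ * (b • (1 : Matrix n n ℝ) - Q) * ρᴴ := by
    rw [hρ.isHermitian.eq, ← h2]
    simp only [Matrix.mul_sub, Matrix.sub_mul, Matrix.mul_smul, Matrix.smul_mul, Matrix.mul_one,
      Matrix.mul_assoc]
  rw [h3]
  exact hb.mul_mul_conjTranspose_same ρ

/-- `tr (Q M Q) ≤ b tr (M Q)` -/
theorem tr_conj_le {Q M : Matrix n n ℝ} (hQ : Q.PosSemidef) {b : ℝ}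
    (hb : (b • (1 : Matrix n n ℝ) - Q).PosSemidef) (hM : M.PosSemidef) :
    (Q * M * Q).trace ≤ b * (M * Q).trace := by
  have h1 := H420.trace_mul_nonneg hM (sq_le_smul hQ hb)
  rw [Matrix.mul_sub, Matrix.mul_smul, trace_sub, trace_smul, smul_eq_mul] at h1
  have h2 : (Q * M * Q).trace = (M * (Q * Q)).trace := by
    rw [Matrix.mul_assoc, trace_mul_comm, Matrix.mul_assoc]
  rw [h2]
  linarith

end mat

section tie

/-- cells of scale `j` in a cell of scale `N` -/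
theorem sum_cells {N j : ℕ} (hj : j ≤ N) (S : ℤ) (f : ℤ → ℝ) :
    ∑ m ∈ iv (N - j) S, ∑ x ∈ iv j m, f x = ∑ x ∈ iv N S, f x := by
  have hmap : ∀ x ∈ iv N S, ix j x ∈ iv (N - j) S := by
    intro x hx
    rw [mem_iv] at hx ⊢
    rw [ix_ix, Nat.add_sub_cancel' hj]
    exact hx
  rw [← Finset.sum_fiberwise_of_maps_to hmap]
  refine Finset.sum_congr rfl fun m hm => ?_
  refine Finset.sum_congr ?_ fun _ _ => rfl
  ext x
  rw [Finset.mem_filter, mem_iv, mem_iv]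
  constructor
  · intro h
    refine ⟨?_, h⟩
    rw [mem_iv] at hm
    rw [← h, ix_ix, Nat.add_sub_cancel' hj] at hm
    exact hm
  · exact fun h => h.2

variable {N : ℕ} {R S T : ℤ} {X : Finset ℤ} {c : ℤ → ℕ → ℤ} {w : ℕ → ℤ → ℤ → ℤ → ℝ}
  {F : ℤ → ℕ → ℤ → ℤ → ℝ} {e : ℝ}

/-- one scale -/
theorem dline {j : ℕ} (hj : j ≤ N) (hw : ∀ n x1 x3, 0 ≤ w j n x1 x3)
    (hF : ∀ p x1 x3, ∑ i ∈ X with c i j = p, F i j x1 x3 ^ 2 ≤ e * 2 ^ j) :
    ∑ i ∈ X, ∑ m ∈ iv (N - j) S, ∑ n ∈ iv (N - j) R,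
      (if c i j - m - n ∈ iv (N - j) T then ∑ x1 ∈ iv j m, ∑ x3 ∈ iv j (c i j - m - n),
        w j n x1 x3 * F i j x1 x3 ^ 2 else 0) ≤
      e * ∑ x1 ∈ iv N S, ∑ x3 ∈ iv N T, 2 ^ j * ∑ n ∈ iv (N - j) R, w j n x1 x3 := by
  have h1 : ∀ i ∈ X, ∀ m n : ℤ,
      (if c i j - m - n ∈ iv (N - j) T then ∑ x1 ∈ iv j m, ∑ x3 ∈ iv j (c i j - m - n),
        w j n x1 x3 * F i j x1 x3 ^ 2 else 0) =
      ∑ p ∈ iv (N - j) T, ∑ x1 ∈ iv j m, ∑ x3 ∈ iv j p,
        (if c i j = m + n + p then w j n x1 x3 * F i j x1 x3 ^ 2 else 0) := by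
    intro i _ m n
    by_cases h : c i j - m - n ∈ iv (N - j) T
    · rw [if_pos h]
      symm
      rw [Finset.sum_eq_single (c i j - m - n)]
      · refine Finset.sum_congr rfl fun x1 _ => Finset.sum_congr rfl fun x3 _ => ?_
        rw [if_pos (by ring)]
      · intro p _ hp
        refine Finset.sum_eq_zero fun x1 _ => Finset.sum_eq_zero fun x3 _ => ?_
        rw [if_neg]
        intro h2
        exact hp (by linarith)
      · exact fun h2 => absurd h h2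
    · rw [if_neg h]
      symm
      refine Finset.sum_eq_zero fun p hp => Finset.sum_eq_zero fun x1 _ =>
        Finset.sum_eq_zero fun x3 _ => ?_
      rw [if_neg]
      intro h2
      refine h ?_
      have : c i j - m - n = p := by linarith
      rwa [this]
  have h2 : ∑ i ∈ X, ∑ m ∈ iv (N - j) S, ∑ n ∈ iv (N - j) R,
      (if c i j - m - n ∈ iv (N - j) T then ∑ x1 ∈ iv j m, ∑ x3 ∈ iv j (c i j - m - n),
        w j n x1 x3 * F i j x1 x3 ^ 2 else 0) =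
      ∑ m ∈ iv (N - j) S, ∑ n ∈ iv (N - j) R, ∑ p ∈ iv (N - j) T, ∑ x1 ∈ iv j m, ∑ x3 ∈ iv j p,
        w j n x1 x3 * ∑ i ∈ X with c i j = m + n + p, F i j x1 x3 ^ 2 := by
    rw [Finset.sum_congr rfl fun i hi => Finset.sum_congr rfl fun m _ =>
      Finset.sum_congr rfl fun n _ => h1 i hi m n]
    rw [Finset.sum_comm]
    refine Finset.sum_congr rfl fun m _ => ?_
    rw [Finset.sum_comm]
    refine Finset.sum_congr rfl fun n _ => ?_
    rw [Finset.sum_comm]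
    refine Finset.sum_congr rfl fun p _ => ?_
    rw [Finset.sum_comm]
    refine Finset.sum_congr rfl fun x1 _ => ?_
    rw [Finset.sum_comm]
    refine Finset.sum_congr rfl fun x3 _ => ?_
    rw [Finset.sum_filter, Finset.mul_sum]
    refine Finset.sum_congr rfl fun i _ => ?_
    split_ifs <;> simp
  rw [h2]
  calc ∑ m ∈ iv (N - j) S, ∑ n ∈ iv (N - j) R, ∑ p ∈ iv (N - j) T, ∑ x1 ∈ iv j m, ∑ x3 ∈ iv j p,
        w j n x1 x3 * ∑ i ∈ X with c i j = m + n + p, F i j x1 x3 ^ 2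
      ≤ ∑ m ∈ iv (N - j) S, ∑ n ∈ iv (N - j) R, ∑ p ∈ iv (N - j) T, ∑ x1 ∈ iv j m,
          ∑ x3 ∈ iv j p, w j n x1 x3 * (e * 2 ^ j) := by
        gcongr with m _ n _ p _ x1 _ x3 _
        · exact hw n x1 x3
        · exact hF _ _ _
    _ = ∑ m ∈ iv (N - j) S, ∑ x1 ∈ iv j m, ∑ p ∈ iv (N - j) T,
          ∑ x3 ∈ iv j p, e * (2 ^ j * ∑ n ∈ iv (N - j) R, w j n x1 x3) := by
        refine Finset.sum_congr rfl fun m _ => ?_
        have q1 : ∀ n ∈ iv (N - j) R, (∑ p ∈ iv (N - j) T, ∑ x1 ∈ iv j m,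
            ∑ x3 ∈ iv j p, w j n x1 x3 * (e * 2 ^ j)) =
            ∑ x1 ∈ iv j m, ∑ p ∈ iv (N - j) T, ∑ x3 ∈ iv j p, w j n x1 x3 * (e * 2 ^ j) :=
          fun n _ => Finset.sum_comm
        rw [Finset.sum_congr rfl q1, Finset.sum_comm]
        refine Finset.sum_congr rfl fun x1 _ => ?_
        rw [Finset.sum_comm]
        refine Finset.sum_congr rfl fun p _ => ?_
        rw [Finset.sum_comm]
        refine Finset.sum_congr rfl fun x3 _ => ?_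
        rw [← Finset.sum_mul]
        ring
    _ = _ := by
        rw [sum_cells hj S (fun x1 => ∑ p ∈ iv (N - j) T,
          ∑ x3 ∈ iv j p, e * (2 ^ j * ∑ n ∈ iv (N - j) R, w j n x1 x3)), Finset.mul_sum]
        refine Finset.sum_congr rfl fun x1 _ => ?_
        rw [sum_cells hj T (fun x3 => e * (2 ^ j * ∑ n ∈ iv (N - j) R, w j n x1 x3)),
          Finset.mul_sum]

/-- **the plane sums of the defect** -/
theorem dGW {b : ℝ} {D : ℤ → ℕ → ℤ → ℤ → ℤ → ℝ} (hb : 0 ≤ b)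
    (hw : ∀ j n x1 x3, 0 ≤ w j n x1 x3)
    (hF : ∀ j ∈ Icc 1 N, ∀ p x1 x3, ∑ i ∈ X with c i j = p, F i j x1 x3 ^ 2 ≤ e * 2 ^ j)
    (hD : ∀ i ∈ X, ∀ j ∈ Icc 1 N, ∀ n n' m, D i j n n' m ≤
      b * ((4 : ℝ) ^ j)⁻¹ * ∑ x1 ∈ iv j m, ∑ x3 ∈ iv j n', w j n x1 x3 * F i j x1 x3 ^ 2) :
    ∑ i ∈ X, ∑ j ∈ Icc 1 N, GW N R S T j (c i j) (D i j) ≤
      b * e * ∑ x1 ∈ iv N S, ∑ x3 ∈ iv N T, ∑ j ∈ Icc 1 N,
        2 ^ j * ∑ n ∈ iv (N - j) R, w j n x1 x3 := by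
  have h1 : ∀ i ∈ X, ∀ j ∈ Icc 1 N, GW N R S T j (c i j) (D i j) ≤
      b * ∑ m ∈ iv (N - j) S, ∑ n ∈ iv (N - j) R,
      (if c i j - m - n ∈ iv (N - j) T then ∑ x1 ∈ iv j m, ∑ x3 ∈ iv j (c i j - m - n),
        w j n x1 x3 * F i j x1 x3 ^ 2 else 0) := by
    intro i hi j hj
    unfold GW
    have h4 : (4 : ℝ) ^ j ≠ 0 := by positivity
    calc (4 : ℝ) ^ j * ∑ m ∈ iv (N - j) S, ∑ n ∈ iv (N - j) R,
          (if c i j - m - n ∈ iv (N - j) T then D i j n (c i j - m - n) m else 0)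
        ≤ (4 : ℝ) ^ j * ∑ m ∈ iv (N - j) S, ∑ n ∈ iv (N - j) R,
          (b * ((4 : ℝ) ^ j)⁻¹) * (if c i j - m - n ∈ iv (N - j) T then
            ∑ x1 ∈ iv j m, ∑ x3 ∈ iv j (c i j - m - n), w j n x1 x3 * F i j x1 x3 ^ 2 else 0) := by
          refine mul_le_mul_of_nonneg_left (Finset.sum_le_sum fun m _ =>
            Finset.sum_le_sum fun n _ => ?_) (by positivity)
          split_ifs with h
          · exact hD i hi j hj n _ m
          · rw [mul_zero]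
      _ = _ := by
          simp only [← Finset.mul_sum]
          field_simp
  refine (Finset.sum_le_sum fun i hi => Finset.sum_le_sum fun j hj => h1 i hi j hj).trans ?_
  rw [Finset.sum_comm]
  simp only [← Finset.mul_sum]
  calc b * ∑ j ∈ Icc 1 N, ∑ i ∈ X, ∑ m ∈ iv (N - j) S, ∑ n ∈ iv (N - j) R,
      (if c i j - m - n ∈ iv (N - j) T then ∑ x1 ∈ iv j m, ∑ x3 ∈ iv j (c i j - m - n),
        w j n x1 x3 * F i j x1 x3 ^ 2 else 0)
      ≤ b * ∑ j ∈ Icc 1 N, e * ∑ x1 ∈ iv N S, ∑ x3 ∈ iv N T,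
        2 ^ j * ∑ n ∈ iv (N - j) R, w j n x1 x3 := by
        refine mul_le_mul_of_nonneg_left (Finset.sum_le_sum fun j hj => ?_) hb
        exact dline (Finset.mem_Icc.1 hj).2 (hw j) (hF j hj)
    _ = _ := by
        rw [← Finset.mul_sum, ← mul_assoc]
        congr 1
        rw [Finset.sum_comm]
        refine Finset.sum_congr rfl fun x1 _ => ?_
        rw [Finset.sum_comm]

variable {ι : Type*} [Fintype ι] [DecidableEq ι]

/-- the tree sum of the even parts at a vector, raw form -/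
theorem tree_raw {l : ℝ} {G K : ℕ → ℤ → Matrix ι ι ℝ} (h : Tr l N G K) (R : ℤ) (v : ι → ℝ) :
    ∑ j ∈ Icc 1 N, (2 : ℝ) ^ j * ∑ n ∈ iv (N - j) R,
      (v ⬝ᵥ del l (K j n) (K (j - 1) (2 * n)) (K (j - 1) (2 * n + 1)) *ᵥ v) ≤
      2 ^ N * ((v ⬝ᵥ G N R *ᵥ v) / (2 * l)) := by
  have h1 := tree_del_vec h le_rfl R v
  rw [tsum_eq] at h1
  have h2 := mul_le_mul_of_nonneg_left h1 (show (0 : ℝ) ≤ 2 ^ N by positivity)
  refine le_trans (le_of_eq ?_) h2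
  rw [Finset.mul_sum]
  refine Finset.sum_congr rfl fun j hj => ?_
  have hj2 := (Finset.mem_Icc.1 hj).2
  have e1 : (2 : ℝ) ^ N * ((2 : ℝ) ^ (N - j))⁻¹ = 2 ^ j := by
    have e0 : (2 : ℝ) ^ N = 2 ^ j * 2 ^ (N - j) := by rw [← pow_add, Nat.add_sub_cancel' hj2]
    rw [e0]
    field_simp
  rw [← mul_assoc, e1]
  rfl

/-- **the total of the defect**: payer with line energies, node data at every `x1`, potential of
the first slot at the root. -/
theorem dTot {b l P : ℝ} {D : ℤ → ℕ → ℤ → ℤ → ℤ → ℝ} (hb : 0 ≤ b) (he : 0 ≤ e)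
    {G K : ℤ → ℕ → ℤ → Matrix ι ι ℝ} (hT : ∀ x1, Tr l N (G x1) (K x1)) {v : ℤ → ℤ → ι → ℝ}
    (hP : ∀ x1 ∈ iv N S, ∀ q : ι → ℝ, q ⬝ᵥ G x1 N R *ᵥ q ≤ P * (q ⬝ᵥ q))
    (hF : ∀ j ∈ Icc 1 N, ∀ p x1 x3, ∑ i ∈ X with c i j = p, F i j x1 x3 ^ 2 ≤ e * 2 ^ j)
    (hD : ∀ i ∈ X, ∀ j ∈ Icc 1 N, ∀ n n' m, D i j n n' m ≤
      b * ((4 : ℝ) ^ j)⁻¹ * ∑ x1 ∈ iv j m, ∑ x3 ∈ iv j n',
        (v x1 x3 ⬝ᵥ del l (K x1 j n) (K x1 (j - 1) (2 * n)) (K x1 (j - 1) (2 * n + 1)) *ᵥ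
          v x1 x3) * F i j x1 x3 ^ 2) :
    ∑ i ∈ X, ∑ j ∈ Icc 1 N, GW N R S T j (c i j) (D i j) ≤
      b * e * (2 ^ N * (P / (2 * l)) * ∑ x1 ∈ iv N S, ∑ x3 ∈ iv N T, v x1 x3 ⬝ᵥ v x1 x3) := by
  -- the weight is set to zero at the scale `0`
  set w : ℕ → ℤ → ℤ → ℤ → ℝ := fun j n x1 x3 => if j ∈ Icc 1 N then
    v x1 x3 ⬝ᵥ del l (K x1 j n) (K x1 (j - 1) (2 * n)) (K x1 (j - 1) (2 * n + 1)) *ᵥ v x1 x3
    else 0 with hwd
  have hw : ∀ j n x1 x3, 0 ≤ w j n x1 x3 := by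
    intro j n x1 x3
    simp only [hwd]
    split_ifs with hj
    · obtain ⟨k, rfl⟩ : ∃ k, j = k + 1 := ⟨j - 1, by have := (Finset.mem_Icc.1 hj).1; omega⟩
      have := (hT x1).nd (k := k) (by have := (Finset.mem_Icc.1 hj).2; omega) n
      exact del_form this _
    · exact le_rfl
  have hD' : ∀ i ∈ X, ∀ j ∈ Icc 1 N, ∀ n n' m, D i j n n' m ≤
      b * ((4 : ℝ) ^ j)⁻¹ * ∑ x1 ∈ iv j m, ∑ x3 ∈ iv j n', w j n x1 x3 * F i j x1 x3 ^ 2 := by
    intro i hi j hj n n' m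
    refine (hD i hi j hj n n' m).trans (le_of_eq ?_)
    simp only [hwd, if_pos hj]
  refine (dGW hb hw hF hD').trans ?_
  refine mul_le_mul_of_nonneg_left ?_ (mul_nonneg hb he)
  rw [Finset.mul_sum]
  refine Finset.sum_le_sum fun x1 hx1 => ?_
  rw [Finset.mul_sum]
  refine Finset.sum_le_sum fun x3 _ => ?_
  have hl := (hT x1).l_pos
  calc ∑ j ∈ Icc 1 N, (2 : ℝ) ^ j * ∑ n ∈ iv (N - j) R, w j n x1 x3
      = ∑ j ∈ Icc 1 N, (2 : ℝ) ^ j * ∑ n ∈ iv (N - j) R, (v x1 x3 ⬝ᵥ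
        del l (K x1 j n) (K x1 (j - 1) (2 * n)) (K x1 (j - 1) (2 * n + 1)) *ᵥ v x1 x3) := by
        refine Finset.sum_congr rfl fun j hj => ?_
        simp only [hwd, if_pos hj]
    _ ≤ 2 ^ N * ((v x1 x3 ⬝ᵥ G x1 N R *ᵥ v x1 x3) / (2 * l)) := tree_raw (hT x1) R _
    _ ≤ 2 ^ N * ((P * (v x1 x3 ⬝ᵥ v x1 x3)) / (2 * l)) := by
        have := hP x1 hx1 (v x1 x3)
        gcongr
    _ = _ := by ring

end tie

end

end Vale.Agent.P141.H633
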