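import Mathlib

/-!
# P141, line (A), flow piece of the C-step: dyadic spectral classes of a symmetric contraction

`cls_exists`: a symmetric matrix `S` with `|S e| ≤ |e|` has orthogonal projections `P j` (spectral
projection for `16 ^ (-(j+1)) < |σ| ≤ 16 ^ (-j)`) with `∑_{j < n} P j S = S` for large `n`,
`|P j S e| ≤ 16 ^ (-j) |e|`, `|P j S e| ≤ |S e|`, `tr P j ≤ 256 ^ (j+1) tr (S Sᵀ)`.
-/

namespace Vale.Agent.P141.H633

open Matrix Finset

noncomputable section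

variable {κ : Type*} [Fintype κ] [DecidableEq κ]

/-- `|e|²` -/
def nv (e : κ → ℝ) : ℝ := ∑ i, e i ^ 2

omit [DecidableEq κ] in
theorem nv_nonneg (e : κ → ℝ) : 0 ≤ nv e := Finset.sum_nonneg fun _ _ => sq_nonneg _

omit [DecidableEq κ] in
theorem nv_eq (e : κ → ℝ) : nv e = e ⬝ᵥ e := by
  unfold nv dotProduct
  exact Finset.sum_congr rfl fun i _ => by ring

theorem nv_orth {U : Matrix κ κ ℝ} (h : Uᵀ * U = 1) (e : κ → ℝ) : nv (U *ᵥ e) = nv e := by
  rw [nv_eq, nv_eq, dotProduct_mulVec, vecMul_mulVec, h, vecMul_one]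

/-- spectral functions -/
def sf (U : Matrix κ κ ℝ) (f : κ → ℝ) : Matrix κ κ ℝ := U * diagonal f * Uᵀ

theorem sf_mul {U : Matrix κ κ ℝ} (h : Uᵀ * U = 1) (f g : κ → ℝ) :
    sf U f * sf U g = sf U (fun i => f i * g i) := by
  unfold sf
  calc U * diagonal f * Uᵀ * (U * diagonal g * Uᵀ) =
      U * (diagonal f * (Uᵀ * U) * diagonal g) * Uᵀ := by simp only [Matrix.mul_assoc]
    _ = _ := by rw [h, Matrix.mul_one, diagonal_mul_diagonal]

theorem sf_transpose (U : Matrix κ κ ℝ) (f : κ → ℝ) : (sf U f)ᵀ = sf U f := by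
  unfold sf
  rw [transpose_mul, transpose_mul, transpose_transpose, diagonal_transpose, Matrix.mul_assoc]

theorem nv_sf {U : Matrix κ κ ℝ} (h : Uᵀ * U = 1) (f : κ → ℝ) (e : κ → ℝ) :
    nv (sf U f *ᵥ e) = ∑ i, f i ^ 2 * (Uᵀ *ᵥ e) i ^ 2 := by
  unfold sf
  rw [← mulVec_mulVec, ← mulVec_mulVec, nv_orth h]
  unfold nv
  refine Finset.sum_congr rfl fun i _ => ?_
  rw [mulVec_diagonal]
  ring

theorem trace_sf {U : Matrix κ κ ℝ} (h : Uᵀ * U = 1) (f : κ → ℝ) : (sf U f).trace = ∑ i, f i := by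
  unfold sf
  rw [trace_mul_comm, ← Matrix.mul_assoc, h, Matrix.one_mul, trace_diagonal]

theorem sf_add (U : Matrix κ κ ℝ) (f g : κ → ℝ) : sf U f + sf U g = sf U (fun i => f i + g i) := by
  unfold sf
  rw [← Matrix.add_mul, ← Matrix.mul_add, diagonal_add]

theorem sf_zero (U : Matrix κ κ ℝ) : sf U (fun _ => 0) = 0 := by
  unfold sf
  simp

theorem sf_sum (U : Matrix κ κ ℝ) (f : ℕ → κ → ℝ) (n : ℕ) :
    ∑ j ∈ range n, sf U (f j) = sf U (fun i => ∑ j ∈ range n, f j i) := by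
  induction n with
  | zero => simp [sf_zero]
  | succ n ih => rw [Finset.sum_range_succ, ih, sf_add]; congr 1; funext i; rw [Finset.sum_range_succ]

/-- the class of a singular value -/
def chi (j : ℕ) (s : ℝ) : ℝ := if (1 / 16 : ℝ) ^ (j + 1) < |s| ∧ |s| ≤ (1 / 16) ^ j then 1 else 0

theorem chi_sq (j : ℕ) (s : ℝ) : chi j s * chi j s = chi j s := by unfold chi; split_ifs <;> norm_num

theorem chi_nonneg (j : ℕ) (s : ℝ) : 0 ≤ chi j s := by unfold chi; split_ifs <;> norm_num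

theorem chi_mul_sq_le (j : ℕ) (s : ℝ) : (chi j s * s) ^ 2 ≤ ((1 / 16 : ℝ) ^ j) ^ 2 := by
  unfold chi
  split_ifs with h
  · rw [one_mul, ← sq_abs s]
    exact pow_le_pow_left₀ (abs_nonneg _) h.2 2
  · rw [zero_mul, zero_pow two_ne_zero]; positivity

theorem chi_mul_sq_le' (j : ℕ) (s : ℝ) : (chi j s * s) ^ 2 ≤ s ^ 2 := by
  unfold chi
  split_ifs with h
  · rw [one_mul]
  · rw [zero_mul, zero_pow two_ne_zero]; positivity

theorem chi_le (j : ℕ) (s : ℝ) : chi j s ≤ 256 ^ (j + 1) * s ^ 2 := by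
  unfold chi
  split_ifs with h
  · have h1 : ((1 / 16 : ℝ) ^ (j + 1)) ^ 2 ≤ |s| ^ 2 := pow_le_pow_left₀ (by positivity) h.1.le 2
    rw [sq_abs] at h1
    have h2 : (256 : ℝ) ^ (j + 1) * ((1 / 16 : ℝ) ^ (j + 1)) ^ 2 = 1 := by
      rw [← pow_mul, mul_comm (j + 1) 2, pow_mul, ← mul_pow]; norm_num
    calc (1 : ℝ) = 256 ^ (j + 1) * ((1 / 16 : ℝ) ^ (j + 1)) ^ 2 := h2.symm
      _ ≤ _ := mul_le_mul_of_nonneg_left h1 (by positivity)
  · positivity

theorem exists_chi {s : ℝ} (h0 : s ≠ 0) (h1 : |s| ≤ 1) :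
    ∃ N, ∀ n, N ≤ n → ∑ j ∈ range n, chi j s = 1 := by
  have hpos : 0 < |s| := abs_pos.mpr h0
  obtain ⟨M, hM⟩ := exists_pow_lt_of_lt_one hpos (show (1 / 16 : ℝ) < 1 by norm_num)
  have hex : ∃ j, (1 / 16 : ℝ) ^ (j + 1) < |s| := ⟨M, lt_of_le_of_lt
    (pow_le_pow_of_le_one (by norm_num) (by norm_num) (Nat.le_succ M)) hM⟩
  classical
  set j0 := Nat.find hex with hj0
  have hj : (1 / 16 : ℝ) ^ (j0 + 1) < |s| := Nat.find_spec hex
  have hmin : ∀ i < j0, |s| ≤ (1 / 16 : ℝ) ^ (i + 1) := fun i hi => not_lt.mp (Nat.find_min hex hi)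
  have hle : |s| ≤ (1 / 16 : ℝ) ^ j0 := by
    rcases Nat.eq_zero_or_pos j0 with h | h
    · rw [h, pow_zero]; exact h1
    · have := hmin (j0 - 1) (by omega)
      rwa [Nat.sub_add_cancel h] at this
  refine ⟨j0 + 1, fun n hn => ?_⟩
  rw [Finset.sum_eq_single j0]
  · unfold chi; rw [if_pos ⟨hj, hle⟩]
  · intro i _ hi
    unfold chi
    rw [if_neg]
    rintro ⟨h3, h4⟩
    rcases lt_or_gt_of_ne hi with h5 | h5
    · exact absurd (hmin i h5) (not_le.mpr h3)
    · have h6 : (1 / 16 : ℝ) ^ i ≤ (1 / 16) ^ (j0 + 1) :=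
        pow_le_pow_of_le_one (by norm_num) (by norm_num) h5
      exact absurd (lt_of_lt_of_le hj h4) (not_lt.mpr h6)
  · intro h
    exact absurd (Finset.mem_range.mpr (by omega)) h

/-- **Spectral classes of a symmetric contraction.** -/
theorem cls_exists {S : Matrix κ κ ℝ} (hS : S.IsHermitian) (hc : ∀ e, nv (S *ᵥ e) ≤ nv e) :
    ∃ P : ℕ → Matrix κ κ ℝ, (∀ j, (P j)ᵀ = P j) ∧ (∀ j, P j * P j = P j) ∧
      (∀ j e, nv ((P j * S) *ᵥ e) ≤ ((1 / 16 : ℝ) ^ j) ^ 2 * nv e) ∧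
      (∀ j e, nv ((P j * S) *ᵥ e) ≤ nv (S *ᵥ e)) ∧
      (∀ j, (P j).trace ≤ 256 ^ (j + 1) * (S * Sᵀ).trace) ∧
      ∃ N, ∀ n, N ≤ n → ∑ j ∈ range n, P j * S = S := by
  classical
  set U : Matrix κ κ ℝ := (hS.eigenvectorUnitary : Matrix κ κ ℝ) with hU
  have h1 : Uᵀ * U = 1 := by
    have h := (Matrix.mem_unitaryGroup_iff').mp hS.eigenvectorUnitary.2
    rw [star_eq_conjTranspose, conjTranspose_eq_transpose_of_trivial] at h
    exact h
  have h2 : U * Uᵀ = 1 := mul_eq_one_comm.mp h1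
  have h3 : (Uᵀ)ᵀ * Uᵀ = 1 := by rw [transpose_transpose]; exact h2
  set lam : κ → ℝ := hS.eigenvalues with hlam
  have hSf : S = sf U lam := by
    have h := hS.spectral_theorem
    rw [Unitary.conjStarAlgAut_apply] at h
    unfold sf
    rw [star_eq_conjTranspose, conjTranspose_eq_transpose_of_trivial] at h
    exact h
  have hl1 : ∀ i, |lam i| ≤ 1 := by
    intro i
    have h := hc (U *ᵥ Pi.single i 1)
    rw [hSf, nv_sf h1, mulVec_mulVec, h1, one_mulVec, nv_orth h1] at h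
    have e1 : ∑ k, lam k ^ 2 * (Pi.single i (1 : ℝ) : κ → ℝ) k ^ 2 = lam i ^ 2 := by
      rw [Finset.sum_eq_single i]
      · simp
      · intro k _ hk; rw [Pi.single_eq_of_ne hk]; ring
      · intro h; exact absurd (Finset.mem_univ i) h
    have e2 : nv (Pi.single i (1 : ℝ) : κ → ℝ) = 1 := by
      unfold nv
      rw [Finset.sum_eq_single i]
      · simp
      · intro k _ hk; rw [Pi.single_eq_of_ne hk]; ring
      · intro h; exact absurd (Finset.mem_univ i) h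
    rw [e1, e2] at h
    rw [← sq_abs] at h
    exact (sq_le_one_iff₀ (abs_nonneg _)).mp h
  have hPS : ∀ j, sf U (fun i => chi j (lam i)) * S = sf U (fun i => chi j (lam i) * lam i) := by
    intro j
    conv_lhs => rw [hSf]
    rw [sf_mul h1]
  refine ⟨fun j => sf U (fun i => chi j (lam i)), fun j => sf_transpose _ _, fun j => ?_,
    fun j e => ?_, fun j e => ?_, fun j => ?_, ?_⟩
  · rw [sf_mul h1]
    congr 1
    funext i
    exact chi_sq _ _
  · rw [hPS, nv_sf h1]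
    rw [← nv_orth h3 e]
    unfold nv
    rw [Finset.mul_sum]
    exact Finset.sum_le_sum fun i _ =>
      mul_le_mul_of_nonneg_right (chi_mul_sq_le _ _) (sq_nonneg _)
  · rw [hPS, nv_sf h1]
    conv_rhs => rw [hSf, nv_sf h1]
    exact Finset.sum_le_sum fun i _ =>
      mul_le_mul_of_nonneg_right (chi_mul_sq_le' _ _) (sq_nonneg _)
  · rw [trace_sf h1]
    have e1 : S * Sᵀ = sf U (fun i => lam i * lam i) := by
      conv_lhs => rw [hSf]
      rw [sf_transpose, sf_mul h1]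
    rw [e1, trace_sf h1, Finset.mul_sum]
    refine Finset.sum_le_sum fun i _ => (chi_le j (lam i)).trans (le_of_eq (by ring))
  · have hN : ∀ i, ∃ N, ∀ n, N ≤ n → (∑ j ∈ range n, chi j (lam i) * lam i) = lam i := by
      intro i
      by_cases h : lam i = 0
      · exact ⟨0, fun n _ => by rw [h]; simp⟩
      · obtain ⟨N, hN⟩ := exists_chi h (hl1 i)
        exact ⟨N, fun n hn => by rw [← Finset.sum_mul, hN n hn, one_mul]⟩
    choose N hN using hN
    refine ⟨univ.sup N, fun n hn => ?_⟩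
    simp only [hPS]
    rw [sf_sum]
    conv_rhs => rw [hSf]
    congr 1
    funext i
    exact hN i n ((Finset.le_sup (Finset.mem_univ i)).trans hn)

/-- the geometric sum -/
theorem sum_min_le {a : ℝ} (ha : 0 < a) (n : ℕ) :
    ∑ j ∈ range n, min ((1 / 2 : ℝ) ^ j) (a ^ 2 * 2 ^ j) ≤ 4 * a := by
  have hA : ∀ m : ℕ, ∑ j ∈ range m, a ^ 2 * (2 : ℝ) ^ j ≤ a ^ 2 * 2 ^ m := by
    intro m
    rw [← Finset.mul_sum]
    refine mul_le_mul_of_nonneg_left ?_ (sq_nonneg a)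
    have := geom_sum_eq (show (2 : ℝ) ≠ 1 by norm_num) m
    rw [this]
    have h2 : (0 : ℝ) < 2 ^ m := by positivity
    norm_num
  have hB : ∀ m k : ℕ, ∑ j ∈ range k, (1 / 2 : ℝ) ^ (m + j) ≤ 2 * (1 / 2) ^ m := by
    intro m k
    simp only [pow_add]
    rw [← Finset.mul_sum, mul_comm]
    refine mul_le_mul_of_nonneg_right ?_ (by positivity)
    have := geom_sum_eq (show (1 / 2 : ℝ) ≠ 1 by norm_num) k
    rw [this]
    have h2 : (0 : ℝ) < (1 / 2) ^ k := by positivity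
    rw [div_le_iff_of_neg (by norm_num)]
    linarith
  have hex : ∃ m : ℕ, 1 ≤ a * 2 ^ m := by
    obtain ⟨m, hm⟩ := pow_unbounded_of_one_lt (1 / a) (show (1 : ℝ) < 2 by norm_num)
    refine ⟨m, ?_⟩
    rw [div_lt_iff₀ ha] at hm
    linarith
  classical
  set N := Nat.find hex with hN
  have hN1 : 1 ≤ a * 2 ^ N := Nat.find_spec hex
  -- the part below `N`
  have hlow : ∀ m ≤ N, ∑ j ∈ range m, min ((1 / 2 : ℝ) ^ j) (a ^ 2 * 2 ^ j) ≤ 2 * a := by
    intro m hm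
    rcases Nat.eq_zero_or_pos m with h0 | h0
    · rw [h0]; simp; positivity
    · have h1 : ¬ (1 ≤ a * 2 ^ (m - 1)) := Nat.find_min hex (by omega)
      push Not at h1
      have h2 : (2 : ℝ) ^ m = 2 * 2 ^ (m - 1) := by
        rw [← pow_succ']; congr 1; omega
      calc ∑ j ∈ range m, min ((1 / 2 : ℝ) ^ j) (a ^ 2 * 2 ^ j) ≤
          ∑ j ∈ range m, a ^ 2 * (2 : ℝ) ^ j := Finset.sum_le_sum fun _ _ => min_le_right _ _
        _ ≤ a ^ 2 * 2 ^ m := hA m
        _ = 2 * a * (a * 2 ^ (m - 1)) := by rw [h2]; ring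
        _ ≤ 2 * a * 1 := mul_le_mul_of_nonneg_left h1.le (by positivity)
        _ = 2 * a := mul_one _
  rcases le_total n N with h | h
  · exact (hlow n h).trans (by linarith)
  · obtain ⟨k, rfl⟩ := Nat.exists_eq_add_of_le h
    rw [Finset.sum_range_add]
    have h3 : ∑ j ∈ range k, min ((1 / 2 : ℝ) ^ (N + j)) (a ^ 2 * 2 ^ (N + j)) ≤ 2 * a := by
      calc _ ≤ ∑ j ∈ range k, (1 / 2 : ℝ) ^ (N + j) :=
            Finset.sum_le_sum fun _ _ => min_le_left _ _
        _ ≤ 2 * (1 / 2) ^ N := hB N k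
        _ ≤ 2 * a := by
            have h4 : (1 / 2 : ℝ) ^ N * 2 ^ N = 1 := by rw [← mul_pow]; norm_num
            have h5 : (1 / 2 : ℝ) ^ N ≤ a := by
              calc (1 / 2 : ℝ) ^ N = (1 / 2) ^ N * 1 := (mul_one _).symm
                _ ≤ (1 / 2) ^ N * (a * 2 ^ N) := mul_le_mul_of_nonneg_left hN1 (by positivity)
                _ = a * ((1 / 2) ^ N * 2 ^ N) := by ring
                _ = a := by rw [h4, mul_one]
            linarith
    have h6 := hlow N le_rfl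
    linarith

end

end Vale.Agent.P141.H633
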