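import Vale.Agent.P141.H703.E2H
import Vale.Agent.P141.H633.SpecC

/-!
# P141, line (A), flow piece of the C-step: averaged Cauchy–Schwarz lemmas

* `hs4_avg`: `S2` of a product of two labelled composites against the two fourth moments;
* `q_bound`: the fourth moment of a composite `eps P c` (orthogonal projections `P` of the label
  space, depending on the row) against its energy, `c` of operator norm at most `s`;
* `dom_energy`, `dom_top`: the energy of `P c` for a dominated slot `c`.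
-/

namespace Vale.Agent.P141.H633

noncomputable section

open Matrix Finset
open Vale.Agent.P141.PL.H315 (avg avg_nonneg)
open Vale.Agent.P141.H550 (avg_prod avg_comm avg_const avg_congr avg_mono avg_mul_left
  avg_mul_right avg_add avg_sum avg_mul_le_sqrt avg_mul_sq_le)

section basic

variable {X Y W : Type*}

theorem avg_le_const {Q : Finset X} {f : X → ℝ} {c : ℝ} (hc : 0 ≤ c) (h : ∀ x ∈ Q, f x ≤ c) :
    avg Q f ≤ c := by
  rcases Q.eq_empty_or_nonempty with rfl | hQ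
  · simpa [avg] using hc
  · exact (avg_mono h).trans_eq (avg_const hQ c)

theorem avg_nonneg' {Q : Finset X} {f : X → ℝ} (h : ∀ x ∈ Q, 0 ≤ f x) : 0 ≤ avg Q f :=
  mul_nonneg (inv_nonneg.mpr (Nat.cast_nonneg _)) (Finset.sum_nonneg h)

theorem avg_sqrt_le {Q : Finset X} {f g : X → ℝ} (hf : ∀ x ∈ Q, 0 ≤ f x)
    (hg : ∀ x ∈ Q, 0 ≤ g x) :
    (avg Q fun x => √(f x) * √(g x)) ≤ √(avg Q f) * √(avg Q g) := by
  refine (avg_mul_le_sqrt Q (fun x => √(f x)) fun x => √(g x)).trans (le_of_eq ?_)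
  rw [avg_congr fun x hx => Real.sq_sqrt (hf x hx), avg_congr fun x hx => Real.sq_sqrt (hg x hx)]

theorem hs_id2 (S : Finset X) (T : Finset Y) (R : Finset W) (p : X → Y → ℝ) (q : X → W → ℝ) :
    (∑ y ∈ T, ∑ w ∈ R, (∑ x ∈ S, p x y * q x w) ^ 2) =
      ∑ x ∈ S, ∑ x' ∈ S, (∑ y ∈ T, p x y * p x' y) * ∑ w ∈ R, q x w * q x' w := by
  have e1 : ∀ y w, (∑ x ∈ S, p x y * q x w) ^ 2 =
      ∑ x ∈ S, ∑ x' ∈ S, (p x y * p x' y) * (q x w * q x' w) := by
    intro y w
    rw [sq, Finset.sum_mul_sum]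
    exact Finset.sum_congr rfl fun x _ => Finset.sum_congr rfl fun x' _ => by ring
  simp only [e1]
  have e2 : ∀ y ∈ T, (∑ w ∈ R, ∑ x ∈ S, ∑ x' ∈ S, (p x y * p x' y) * (q x w * q x' w)) =
      ∑ x ∈ S, ∑ x' ∈ S, (p x y * p x' y) * ∑ w ∈ R, q x w * q x' w := by
    intro y _
    rw [Finset.sum_comm]
    refine Finset.sum_congr rfl fun x _ => ?_
    rw [Finset.sum_comm]
    exact Finset.sum_congr rfl fun x' _ => (Finset.mul_sum _ _ _).symm
  rw [Finset.sum_congr rfl e2, Finset.sum_comm]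
  refine Finset.sum_congr rfl fun x _ => ?_
  rw [Finset.sum_comm]
  exact Finset.sum_congr rfl fun x' _ => (Finset.sum_mul _ _ _).symm

/-- `‖p q‖₂² ≤ ‖p‖₄² ‖q‖₄²`, squared -/
theorem hs4 (S : Finset X) (T : Finset Y) (R : Finset W) (p : X → Y → ℝ) (q : X → W → ℝ) :
    (∑ y ∈ T, ∑ w ∈ R, (∑ x ∈ S, p x y * q x w) ^ 2) ^ 2 ≤
      (∑ y ∈ T, ∑ y' ∈ T, (∑ x ∈ S, p x y * p x y') ^ 2) *
        ∑ w ∈ R, ∑ w' ∈ R, (∑ x ∈ S, q x w * q x w') ^ 2 := by
  rw [hs_id2, hs_id2 S T T p p, hs_id2 S R R q q]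
  simp only [← Finset.sum_product']
  refine (Finset.sum_mul_sq_le_sq_mul_sq _ _ _).trans (le_of_eq ?_)
  congr 1
  · exact Finset.sum_congr rfl fun x _ => sq _
  · exact Finset.sum_congr rfl fun x _ => sq _

theorem avg2_sq (P : Finset Y) (Q : Finset W) (r : ℝ) (g : Y → W → ℝ) :
    (avg P fun y => avg Q fun w => (r * g y w) ^ 2) =
      (P.card : ℝ)⁻¹ * (Q.card : ℝ)⁻¹ * r ^ 2 * ∑ y ∈ P, ∑ w ∈ Q, g y w ^ 2 := by
  unfold avg
  simp only [mul_pow, ← Finset.mul_sum]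
  ring

variable {κ : Type*} [Fintype κ]

/-- the version with averages and labels -/
theorem hs4_avg (A : Finset X) (B : Finset Y) (C : Finset W) (p : κ → X → Y → ℝ)
    (q : κ → X → W → ℝ) :
    (avg B fun y => avg C fun w => (∑ l, avg A fun x => p l x y * q l x w) ^ 2) ≤
      √(avg B fun y => avg B fun y' => (∑ l, avg A fun x => p l x y * p l x y') ^ 2) *
        √(avg C fun w => avg C fun w' => (∑ l, avg A fun x => q l x w * q l x w') ^ 2) := by
  have h := hs4 ((Finset.univ : Finset κ) ×ˢ A) B C (fun i y => p i.1 i.2 y)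
    (fun i w => q i.1 i.2 w)
  have e : ∀ (f : κ → X → ℝ), (∑ l, avg A fun x => f l x) =
      (A.card : ℝ)⁻¹ * ∑ i ∈ (Finset.univ : Finset κ) ×ˢ A, f i.1 i.2 := by
    intro f
    unfold avg
    rw [← Finset.mul_sum, Finset.sum_product]
  simp only [e]
  rw [avg2_sq B C _ fun y w => ∑ i ∈ (Finset.univ : Finset κ) ×ˢ A, p i.1 i.2 y * q i.1 i.2 w,
    avg2_sq B B _ fun y y' => ∑ i ∈ (Finset.univ : Finset κ) ×ˢ A, p i.1 i.2 y * p i.1 i.2 y',
    avg2_sq C C _ fun w w' => ∑ i ∈ (Finset.univ : Finset κ) ×ˢ A, q i.1 i.2 w * q i.1 i.2 w',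
    ← Real.sqrt_mul (by positivity)]
  refine Real.le_sqrt_of_sq_le ?_
  rw [mul_pow]
  refine (mul_le_mul_of_nonneg_left h (sq_nonneg _)).trans (le_of_eq ?_)
  ring

end basic

section proj

variable {X W : Type*} {κ : Type*} [Fintype κ]

theorem proj_dot {P : Matrix κ κ ℝ} (h1 : Pᵀ = P) (h2 : P * P = P) (c c' : κ → ℝ) :
    (P *ᵥ c) ⬝ᵥ (P *ᵥ c') = c ⬝ᵥ (P *ᵥ c') := by
  rw [dotProduct_mulVec, ← mulVec_transpose, h1, mulVec_mulVec, h2, dotProduct_comm,
    dotProduct_mulVec, ← mulVec_transpose, h1, dotProduct_comm, dotProduct_mulVec,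
    ← mulVec_transpose, h1]

theorem nv_proj_le {P : Matrix κ κ ℝ} (h1 : Pᵀ = P) (h2 : P * P = P) (e : κ → ℝ) :
    nv (P *ᵥ e) ≤ nv e := by
  have h0 : 0 ≤ nv (e - P *ᵥ e) := nv_nonneg _
  have h3 : (P *ᵥ e) ⬝ᵥ (P *ᵥ e) = e ⬝ᵥ (P *ᵥ e) := proj_dot h1 h2 e e
  rw [nv_eq, sub_dotProduct, dotProduct_sub, dotProduct_sub] at h0
  rw [nv_eq, nv_eq]
  have h4 : (P *ᵥ e) ⬝ᵥ e = e ⬝ᵥ (P *ᵥ e) := dotProduct_comm _ _
  linarith

theorem sum_rows {P : Matrix κ κ ℝ} (h1 : Pᵀ = P) (h2 : P * P = P) :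
    ∑ i, nv (P i) = P.trace := by
  have : P.trace = (P * Pᵀ).trace := by rw [h1, h2]
  rw [this]
  unfold Matrix.trace
  refine Finset.sum_congr rfl fun i _ => ?_
  rw [diag_apply, mul_apply]
  unfold nv
  exact Finset.sum_congr rfl fun l _ => by rw [transpose_apply, sq]

/-- **the fourth moment of `eps P c`**, `c` of operator norm at most `s` -/
theorem q_bound {s : ℝ} (A : Finset X) (C : Finset W) (c : κ → X → W → ℝ)
    (P : X → Matrix κ κ ℝ) (eps : X → ℝ) (h1 : ∀ x ∈ A, (P x)ᵀ = P x)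
    (h2 : ∀ x ∈ A, P x * P x = P x) (heps : ∀ x ∈ A, |eps x| ≤ 1)
    (hop : ∀ ψ : κ → X → ℝ, (avg C fun w => (avg A fun x => ∑ l, c l x w * ψ l x) ^ 2) ≤
      s ^ 2 * avg A fun x => ∑ l, ψ l x ^ 2) :
    (avg C fun w => avg C fun w' => (∑ l, avg A fun x =>
      (eps x * (P x *ᵥ fun k => c k x w) l) * (eps x * (P x *ᵥ fun k => c k x w') l)) ^ 2) ≤
      s ^ 2 * avg C fun w' => avg A fun x => nv (P x *ᵥ fun k => c k x w') := by
  rw [avg_comm, ← avg_mul_left]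
  refine avg_mono fun w' _ => ?_
  have h := hop fun l x => eps x ^ 2 * (P x *ᵥ fun k => c k x w') l
  have e1 : ∀ w, (∑ l, avg A fun x =>
      (eps x * (P x *ᵥ fun k => c k x w) l) * (eps x * (P x *ᵥ fun k => c k x w') l)) =
      avg A fun x => ∑ l, c l x w * (eps x ^ 2 * (P x *ᵥ fun k => c k x w') l) := by
    intro w
    rw [← avg_sum]
    refine avg_congr fun x hx => ?_
    have h3 := proj_dot (h1 x hx) (h2 x hx) (fun k => c k x w) (fun k => c k x w')
    simp only [dotProduct] at h3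
    calc _ = eps x ^ 2 * ∑ l, (P x *ᵥ fun k => c k x w) l * (P x *ᵥ fun k => c k x w') l := by
          rw [Finset.mul_sum]
          exact Finset.sum_congr rfl fun l _ => by ring
      _ = _ := by
          rw [h3, Finset.mul_sum]
          exact Finset.sum_congr rfl fun l _ => by ring
  simp only [e1]
  refine h.trans (mul_le_mul_of_nonneg_left (avg_mono fun x hx => ?_) (sq_nonneg _))
  have h4 : eps x ^ 4 ≤ 1 := by
    have := pow_le_one₀ (n := 4) (abs_nonneg (eps x)) (heps x hx)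
    have e4 : |eps x| ^ 4 = eps x ^ 4 := by
      rw [show (4 : ℕ) = 2 * 2 by norm_num, pow_mul, pow_mul, sq_abs]
    rwa [e4] at this
  calc ∑ l, (eps x ^ 2 * (P x *ᵥ fun k => c k x w') l) ^ 2
      = eps x ^ 4 * nv (P x *ᵥ fun k => c k x w') := by
        unfold nv
        rw [Finset.mul_sum]
        exact Finset.sum_congr rfl fun l _ => by ring
    _ ≤ 1 * nv (P x *ᵥ fun k => c k x w') := mul_le_mul_of_nonneg_right h4 (nv_nonneg _)
    _ = _ := one_mul _

/-- **domination**: the energy of `P c` -/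
theorem dom_energy (C : Finset W) (c v : κ → W → ℝ) (Z : W → ℝ) (P : Matrix κ κ ℝ)
    (hdom : ∀ e : κ → ℝ, (avg C fun w => (∑ l, e l * c l w) ^ 2) ≤
      avg C fun w => (∑ l, e l * v l w) ^ 2 * Z w ^ 2) :
    (avg C fun w => nv (P *ᵥ fun k => c k w)) ≤
      avg C fun w => nv (P *ᵥ fun k => v k w) * Z w ^ 2 := by
  have e1 : (avg C fun w => nv (P *ᵥ fun k => c k w)) =
      ∑ i, avg C fun w => (∑ l, P i l * c l w) ^ 2 := by
    rw [← avg_sum]; rfl
  have e2 : (avg C fun w => nv (P *ᵥ fun k => v k w) * Z w ^ 2) =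
      ∑ i, avg C fun w => (∑ l, P i l * v l w) ^ 2 * Z w ^ 2 := by
    rw [← avg_sum]
    refine avg_congr fun w _ => ?_
    rw [← Finset.sum_mul]; rfl
  rw [e1, e2]
  exact Finset.sum_le_sum fun i _ => hdom (P i)

end proj

end

end Vale.Agent.P141.H633
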