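import Vale.Agent.P141.H609.CStep
import Vale.Agent.P141.H338.Lab4
import Vale.Agent.P141.H576.GlueW

/-!
# P141, line (A): a capped block with labels as a family of kernels

`node_glue` : the pair of the saturated block of `C` with a matrix `Y = h₁ Bᵀ` in averages over the
cells.
-/

namespace Vale.Agent.P141.H633

open Finset Matrix Vale.Agent.P075 Vale.Agent.P141.PL Vale.Agent.P141.PL.H588
open Vale.Agent.P141.PL.H804 Vale.Agent.P141.H958 Vale.Agent.P141.H338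
open Vale.Agent.P141.PL.H315 (avg avg_nonneg)

noncomputable section

/-- every block matrix is a block of samples -/
theorem exists_bl (k : ℕ) (p q : ℤ) (D : Matrix (Ix k) (Ix k) ℝ) :
    ∃ F : ℤ → ℤ → ℝ, bl k F p q = D := by
  have hinj : Function.Injective
      (fun i : Ix k × Ix k => ((2 ^ k * p + val k i.1 : ℤ), (2 ^ k * q + val k i.2 : ℤ))) := by
    intro i j h
    simp only [Prod.mk.injEq, add_right_inj] at h
    exact Prod.ext (val_inj k (by exact_mod_cast h.1)) (val_inj k (by exact_mod_cast h.2))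
  refine ⟨fun x y => Function.extend (fun i : Ix k × Ix k =>
    ((2 ^ k * p + val k i.1 : ℤ), (2 ^ k * q + val k i.2 : ℤ))) (fun i => D i.1 i.2) 0 (x, y), ?_⟩
  ext i j
  exact hinj.extend_apply (fun i => D i.1 i.2) 0 (i, j)

variable {κ : Type*} [Fintype κ] {L : ℕ} {e : κ → ℤ}

/-- a vector with labels on the fine grid -/
def vf (L : ℕ) (e : κ → ℤ) (ψ : κ → ℤ → ℝ) (x : ℤ) : ℝ := cu e (fun l => ψ l (ix L x)) (lb L x)

theorem sum_vf (hm : ∀ i, e i ∈ lbs L) (k : ℕ) (p : ℤ) (F : ℤ → ℝ) (ψ : κ → ℤ → ℝ) :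
    ∑ x ∈ iv (k + L) p, F x * vf L e ψ x = ∑ x ∈ iv k p, ∑ l, F (2 ^ L * x + e l) * ψ l x := by
  have h := sum_iv_add L k p fun lab x => F (2 ^ L * x + lab) * cu e (fun l => ψ l x) lab
  have e1 : ∑ x ∈ iv (k + L) p, F x * vf L e ψ x =
      ∑ x ∈ iv (k + L) p, F (2 ^ L * ix L x + lb L x) * cu e (fun l => ψ l (ix L x)) (lb L x) :=
    sum_congr rfl fun x _ => by rw [mk_ix_lb]; rfl
  rw [e1, h]
  refine sum_congr rfl fun x _ => ?_
  rw [sum_congr rfl fun lab _ => mul_comm (F (2 ^ L * x + lab)) _,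
    sum_cu_mul hm (fun l => ψ l x) fun lab => F (2 ^ L * x + lab)]
  exact sum_congr rfl fun l _ => mul_comm _ _

theorem sum_vf_sq (he : Function.Injective e) (hm : ∀ i, e i ∈ lbs L) (k : ℕ) (p : ℤ)
    (ψ : κ → ℤ → ℝ) :
    ∑ x ∈ iv (k + L) p, vf L e ψ x ^ 2 = ∑ x ∈ iv k p, ∑ l, ψ l x ^ 2 := by
  have h := sum_vf hm k p (vf L e ψ) ψ
  have e1 : ∑ x ∈ iv (k + L) p, vf L e ψ x ^ 2 = ∑ x ∈ iv (k + L) p, vf L e ψ x * vf L e ψ x :=
    sum_congr rfl fun x _ => by ring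
  rw [e1, h]
  refine sum_congr rfl fun x _ => sum_congr rfl fun l _ => ?_
  unfold vf
  rw [ix_mk (hm l), lb_mk (hm l), cu_apply he]
  ring

/-- the quadratic form of a block -/
theorem bl_mulVec_sum (k : ℕ) (F : ℤ → ℤ → ℝ) (r p : ℤ) (u : ℤ → ℝ) (i : Ix k) :
    (bl k F r p *ᵥ fun j => u (2 ^ k * p + val k j)) i =
      ∑ x ∈ iv k p, F (2 ^ k * r + val k i) x * u x := by
  rw [sum_iv k p]
  rfl

theorem sum_sq_bl (k : ℕ) (F : ℤ → ℤ → ℝ) (r p : ℤ) (u : ℤ → ℝ) :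
    (bl k F r p *ᵥ fun j => u (2 ^ k * p + val k j)) ⬝ᵥ
      (bl k F r p *ᵥ fun j => u (2 ^ k * p + val k j)) =
      ∑ w ∈ iv k r, (∑ x ∈ iv k p, F w x * u x) ^ 2 := by
  rw [sum_iv k r]
  unfold dotProduct
  refine sum_congr rfl fun i _ => ?_
  rw [bl_mulVec_sum]
  ring

theorem quad_gram {n : Type*} [Fintype n] (D : Matrix n n ℝ) (v : n → ℝ) :
    v ⬝ᵥ ((Dᵀ * D) *ᵥ v) = (D *ᵥ v) ⬝ᵥ (D *ᵥ v) := by
  rw [← mulVec_mulVec, dotProduct_mulVec, vecMul_transpose]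

theorem tr_gram {n : Type*} [Fintype n] (E Y : Matrix n n ℝ) :
    ((E * Y) * (E * Y)ᵀ).trace = ((Eᵀ * E) * (Y * Yᵀ)).trace := by
  rw [transpose_mul, show E * Y * (Yᵀ * Eᵀ) = (E * (Y * Yᵀ)) * Eᵀ by
    simp only [Matrix.mul_assoc], trace_mul_comm, ← Matrix.mul_assoc]

variable (he : Function.Injective e) (hm : ∀ i, e i ∈ lbs L)

include he hm in
/-- **The node.** -/
theorem node_glue {k : ℕ} (hk : 1 ≤ k) {s : ℝ} (hs0 : 0 < s) (r q p : ℤ) (c : ℤ → ℤ → κ → ℝ) :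
    ∃ Cc : κ → ℤ → ℤ → ℝ,
      (∀ ψ : κ → ℤ → ℝ, (avg (iv (k + L) r) fun w => (avg (iv k p) fun x =>
        ∑ l, Cc l x w * ψ l x) ^ 2) ≤ s ^ 2 * avg (iv k p) fun x => ∑ l, ψ l x ^ 2) ∧
      (∀ x ∈ iv k p, ∀ ε : κ → ℝ, (avg (iv (k + L) r) fun w => (∑ l, ε l * Cc l x w) ^ 2) ≤
        avg (iv (k + L) r) fun w => (∑ l, ε l * c (ix L w) x l) ^ 2) ∧
      ∀ b : ℤ → ℤ → κ → ℝ,
        (phi (gramC ((s ^ 2)⁻¹ * (4 ^ (k + L))⁻¹)
            (bl (k + L) (encR L fun lab w x => cu e (c w x) lab) r p)) *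
          ((hd (k + L) * (bl (k + L) (encR L fun lab y x => cu e (b y x) lab) q p)ᵀ) *
            (hd (k + L) * (bl (k + L) (encR L fun lab y x => cu e (b y x) lab) q p)ᵀ)ᵀ)).trace =
          (s ^ 2)⁻¹ * 4 ^ (k + L) * avg (iv k q) fun y => avg (iv (k + L) r) fun w =>
            (avg (iv k p) fun x => hs k x * ∑ l, Cc l x w * b y x l) ^ 2 := by
  have h2L : (0 : ℝ) < 2 ^ L := by positivity
  have hsq : √((2 : ℝ) ^ L) * √((2 : ℝ) ^ L) = 2 ^ L := Real.mul_self_sqrt h2L.le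
  have hsr : √((2 : ℝ) ^ L) ≠ 0 := (Real.sqrt_pos.2 h2L).ne'
  have hν : 0 < (s ^ 2)⁻¹ * ((4 : ℝ) ^ (k + L))⁻¹ := by positivity
  set ν : ℝ := (s ^ 2)⁻¹ * ((4 : ℝ) ^ (k + L))⁻¹ with hνd
  set H := bl (k + L) (encR L fun lab w x => cu e (c w x) lab) r p with hH
  obtain ⟨D, h1, h2, -⟩ := H609.phi_split hν H
  obtain ⟨F, rfl⟩ := exists_bl (k + L) r p D
  refine ⟨fun l x w => (√((2 : ℝ) ^ L))⁻¹ * F w (2 ^ L * x + e l), ?_, ?_, ?_⟩
  · intro ψ
    have q1 := (one_sub_phi_psd (gramC_psd hν.le H)).dotProduct_mulVec_nonneg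
      fun j => vf L e ψ (2 ^ (k + L) * p + val (k + L) j)
    rw [star_trivial, h1, sub_mulVec, one_mulVec, smul_mulVec, dotProduct_sub, dotProduct_smul,
      smul_eq_mul, quad_gram, sum_sq_bl] at q1
    have q2 : (fun j => vf L e ψ (2 ^ (k + L) * p + val (k + L) j)) ⬝ᵥ
        (fun j => vf L e ψ (2 ^ (k + L) * p + val (k + L) j)) =
        ∑ x ∈ iv k p, ∑ l, ψ l x ^ 2 := by
      rw [← sum_vf_sq he hm, sum_iv (k + L) p]
      exact sum_congr rfl fun j _ => by ring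
    rw [q2] at q1
    simp only [sum_vf hm] at q1
    rw [avg_iv, avg_iv]
    simp only [avg_iv]
    have q3 : ∀ w, ((2 ^ k : ℝ)⁻¹ * ∑ x ∈ iv k p, ∑ l,
        (√((2 : ℝ) ^ L))⁻¹ * F w (2 ^ L * x + e l) * ψ l x) ^ 2 =
        ((4 : ℝ) ^ k)⁻¹ * (2 ^ L)⁻¹ * (∑ x ∈ iv k p, ∑ l, F w (2 ^ L * x + e l) * ψ l x) ^ 2 := by
      intro w
      have e1 : ∑ x ∈ iv k p, ∑ l, (√((2 : ℝ) ^ L))⁻¹ * F w (2 ^ L * x + e l) * ψ l x =
          (√((2 : ℝ) ^ L))⁻¹ * ∑ x ∈ iv k p, ∑ l, F w (2 ^ L * x + e l) * ψ l x := by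
        rw [mul_sum]
        refine sum_congr rfl fun x _ => ?_
        rw [mul_sum]
        exact sum_congr rfl fun l _ => by ring
      rw [e1, mul_pow, mul_pow, inv_pow, inv_pow, Real.sq_sqrt h2L.le, ← pow_mul, mul_comm k 2,
        pow_mul]
      norm_num
      ring
    simp only [q3, ← mul_sum]
    generalize hT : ∑ w ∈ iv (k + L) r,
      (∑ x ∈ iv k p, ∑ l, F w (2 ^ L * x + e l) * ψ l x) ^ 2 = T at q1 ⊢
    generalize hU : ∑ x ∈ iv k p, ∑ l, ψ l x ^ 2 = U at q1 ⊢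
    have q4 : T ≤ s ^ 2 * 4 ^ (k + L) * U := by
      have q5 : ν * T ≤ U := by linarith
      have q6 := mul_le_mul_of_nonneg_left q5 (show (0 : ℝ) ≤ s ^ 2 * 4 ^ (k + L) by positivity)
      have q7 : s ^ 2 * 4 ^ (k + L) * (ν * T) = T := by
        rw [hνd]
        field_simp
      rwa [q7] at q6
    have q8 := mul_le_mul_of_nonneg_left q4
      (show (0 : ℝ) ≤ (2 ^ (k + L))⁻¹ * ((4 ^ k)⁻¹ * (2 ^ L)⁻¹) by positivity)
    refine le_trans (le_of_eq (by ring)) (q8.trans (le_of_eq ?_))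
    have e4 : (4 : ℝ) ^ (k + L) = 2 ^ (k + L) * (2 ^ k * 2 ^ L) := by
      rw [← pow_add, ← pow_add, show k + L + (k + L) = 2 * (k + L) by ring, pow_mul]; norm_num
    have e5 : (4 : ℝ) ^ k = 2 ^ k * 2 ^ k := by rw [← mul_pow]; norm_num
    rw [e4, e5]
    field_simp
  · intro x hx ε
    classical
    set ψ : κ → ℤ → ℝ := fun l x' => if x' = x then ε l else 0 with hψ
    have q1 := h2.dotProduct_mulVec_nonneg
      fun j => vf L e ψ (2 ^ (k + L) * p + val (k + L) j)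
    rw [star_trivial, sub_mulVec, dotProduct_sub, quad_gram, quad_gram, hH, sum_sq_bl,
      sum_sq_bl] at q1
    simp only [sum_vf hm] at q1
    have q2 : ∀ g : κ → ℤ → ℝ, ∑ x' ∈ iv k p, ∑ l, g l x' * ψ l x' = ∑ l, g l x * ε l := by
      intro g
      rw [sum_eq_single_of_mem x hx]
      · exact sum_congr rfl fun l _ => by simp only [hψ, if_true]
      · intro x' _ hne
        exact sum_eq_zero fun l _ => by simp only [hψ, if_neg hne, mul_zero]
    have q3 : ∀ w, ∑ x' ∈ iv k p, ∑ l, F w (2 ^ L * x' + e l) * ψ l x' =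
        ∑ l, F w (2 ^ L * x + e l) * ε l := fun w => q2 fun l x' => F w (2 ^ L * x' + e l)
    have q4 : ∀ w, ∑ x' ∈ iv k p, ∑ l, encR L (fun lab w x => cu e (c w x) lab) w
        (2 ^ L * x' + e l) * ψ l x' = √(2 ^ L) * ∑ l, ε l * c (ix L w) x l := by
      intro w
      rw [q2 fun l x' => encR L (fun lab w x => cu e (c w x) lab) w (2 ^ L * x' + e l), mul_sum]
      refine sum_congr rfl fun l _ => ?_
      rw [encR_apply, ix_mk (hm l), lb_mk (hm l), cu_apply he]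
      ring
    simp only [q3, q4, mul_pow, Real.sq_sqrt h2L.le, ← mul_sum] at q1
    rw [avg_iv, avg_iv]
    have q5 : ∀ w, (∑ l, ε l * ((√((2 : ℝ) ^ L))⁻¹ * F w (2 ^ L * x + e l))) ^ 2 =
        ((2 : ℝ) ^ L)⁻¹ * (∑ l, F w (2 ^ L * x + e l) * ε l) ^ 2 := by
      intro w
      have e1 : ∑ l, ε l * ((√((2 : ℝ) ^ L))⁻¹ * F w (2 ^ L * x + e l)) =
          (√((2 : ℝ) ^ L))⁻¹ * ∑ l, F w (2 ^ L * x + e l) * ε l := by
        rw [mul_sum]
        exact sum_congr rfl fun l _ => by ring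
      rw [e1, mul_pow, inv_pow, Real.sq_sqrt h2L.le]
    simp only [q5, ← mul_sum]
    refine mul_le_mul_of_nonneg_left ?_ (by positivity)
    rw [inv_mul_le_iff₀ h2L]
    linarith
  · intro b
    set B := bl (k + L) (encR L fun lab y x => cu e (b y x) lab) q p with hB
    set E := bl (k + L) F r p with hE
    have q1 : (phi (gramC ν H) * ((hd (k + L) * Bᵀ) * (hd (k + L) * Bᵀ)ᵀ)).trace =
        ν * ((E * (hd (k + L) * Bᵀ)) * (E * (hd (k + L) * Bᵀ))ᵀ).trace := by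
      rw [h1, Matrix.smul_mul, trace_smul, smul_eq_mul, tr_gram]
    have q2 : ∀ i j, (E * (hd (k + L) * Bᵀ)) i j =
        2 ^ L * ∑ x ∈ iv k p, hs k x * ∑ l, ((√((2 : ℝ) ^ L))⁻¹ *
          F (2 ^ (k + L) * r + val (k + L) i) (2 ^ L * x + e l)) *
            b (ix L (2 ^ (k + L) * q + val (k + L) j)) x l := by
      intro i j
      have e1 : (E * (hd (k + L) * Bᵀ)) i j = ∑ x ∈ iv (k + L) p,
          F (2 ^ (k + L) * r + val (k + L) i) x * vf L e (fun l x => hs k x * (√(2 ^ L) *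
            b (ix L (2 ^ (k + L) * q + val (k + L) j)) x l)) x := by
        rw [sum_iv (k + L) p, Matrix.mul_apply]
        refine sum_congr rfl fun a _ => ?_
        rw [H576.hd_eq (by omega) p, Matrix.diagonal_mul, Matrix.transpose_apply]
        have e2 : B j a = √(2 ^ L) * cu e (b (ix L (2 ^ (k + L) * q + val (k + L) j))
            (ix L (2 ^ (k + L) * p + val (k + L) a))) (lb L (2 ^ (k + L) * p + val (k + L) a)) :=
          rfl
        have e3 : E i a = F (2 ^ (k + L) * r + val (k + L) i) (2 ^ (k + L) * p + val (k + L) a) :=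
          rfl
        rw [e2, e3, H958.hs_add hk]
        unfold vf
        rw [cu_smul, cu_smul]
      rw [e1, sum_vf hm, mul_sum]
      refine sum_congr rfl fun x _ => ?_
      rw [mul_sum, mul_sum]
      refine sum_congr rfl fun l _ => ?_
      have e4 : √((2 : ℝ) ^ L) = 2 ^ L * (√((2 : ℝ) ^ L))⁻¹ :=
        (eq_mul_inv_iff_mul_eq₀ hsr).2 hsq
      generalize (√((2 : ℝ) ^ L))⁻¹ = τ at e4 ⊢
      rw [e4]
      ring
    set g : ℤ → ℤ → ℝ := fun w y => (∑ x ∈ iv k p, hs k x * ∑ l, ((√((2 : ℝ) ^ L))⁻¹ *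
          F w (2 ^ L * x + e l)) * b y x l) ^ 2 with hg
    have q3 : ((E * (hd (k + L) * Bᵀ)) * (E * (hd (k + L) * Bᵀ))ᵀ).trace =
        4 ^ L * (2 ^ L * ∑ w ∈ iv (k + L) r, ∑ y ∈ iv k q, g w y) := by
      have e1 : ((E * (hd (k + L) * Bᵀ)) * (E * (hd (k + L) * Bᵀ))ᵀ).trace =
          ∑ i, ∑ j, (E * (hd (k + L) * Bᵀ)) i j ^ 2 := by
        unfold Matrix.trace
        refine sum_congr rfl fun i _ => ?_
        rw [diag_apply, Matrix.mul_apply]
        exact sum_congr rfl fun j _ => by rw [transpose_apply]; ring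
      rw [e1, sum_iv (k + L) r, mul_sum, mul_sum]
      refine sum_congr rfl fun i _ => ?_
      rw [← sum_iv_ix L k q, sum_iv (k + L) q, mul_sum]
      refine sum_congr rfl fun j _ => ?_
      rw [q2, mul_pow, ← pow_mul, mul_comm L 2, pow_mul]
      norm_num [hg]
    rw [q1, q3, avg_iv]
    simp only [avg_iv]
    have q4 : ∀ w y, ((2 ^ k : ℝ)⁻¹ * ∑ x ∈ iv k p, hs k x * ∑ l, ((√((2 : ℝ) ^ L))⁻¹ *
          F w (2 ^ L * x + e l)) * b y x l) ^ 2 = ((4 : ℝ) ^ k)⁻¹ * g w y := by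
      intro w y
      rw [mul_pow, inv_pow, ← pow_mul, mul_comm k 2, pow_mul]
      norm_num [hg]
    simp only [q4, ← mul_sum]
    rw [sum_comm]
    generalize ∑ y ∈ iv k q, ∑ w ∈ iv (k + L) r, g w y = T
    have e4 : (4 : ℝ) ^ (k + L) = 4 ^ k * 4 ^ L := by rw [pow_add]
    have e5 : (4 : ℝ) ^ k = 2 ^ k * 2 ^ k := by rw [← mul_pow]; norm_num
    have e6 : (4 : ℝ) ^ L = 2 ^ L * 2 ^ L := by rw [← mul_pow]; norm_num
    rw [hνd, e4, e5, e6, pow_add]
    field_simp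

end

end Vale.Agent.P141.H633
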