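import Vale.Agent.P141.H633.FlowN
import Vale.Agent.P141.H633.DLine

/-!
# P141, line (A): the flow pair of the C-step in the letters of `H609.c_cost`

`flowV` : the sum over `x₀` and over the nodes of
`tr (φ (gramC C) Y Yᵀ)`, `Y = h₁ (S_f B)ᵀ`, for `B = g • u`, `C = Z • v`.
-/

namespace Vale.Agent.P141.H633

open Finset Matrix Vale.Agent.P075 Vale.Agent.P141.PL Vale.Agent.P141.PL.H588
open Vale.Agent.P141.PL.H804 Vale.Agent.P141.H958 Vale.Agent.P141.H338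
open Vale.Agent.P141.PL.H315 (avg avg_nonneg)
open Vale.Agent.P141.H550 (avg_prod avg_comm avg_const avg_congr avg_mono avg_mul_left
  avg_mul_right avg_add avg_sum avg_mul_le_sqrt avg_mul_sq_le)
open Vale.Agent.P141.H834 (UnifP LineB)
open Vale.Agent.P141.H420 (Nd Tr)

noncomputable section

open scoped Classical

variable {κ : Type*} [Fintype κ] [DecidableEq κ]

/-- the flow matrix at the middle cell `n` of scale `k` and the point `x` -/
def SfK (l : ℝ) (K : ℤ → ℕ → ℤ → Matrix κ κ ℝ) (k : ℕ) (n x : ℤ) : Matrix κ κ ℝ :=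
  Sf l (K x k n) (K x (k - 1) (2 * n)) (K x (k - 1) (2 * n + 1))

/-- the labelled function of the flow slot -/
def FB (l : ℝ) (e : κ → ℤ) (K : ℤ → ℕ → ℤ → Matrix κ κ ℝ) (b : ℤ → ℤ → κ → ℝ) (k : ℕ) (n : ℤ) :
    ℤ → ℤ → ℤ → ℝ := fun lab y x => cu e (SfK l K k n x *ᵥ b y x) lab

/-- the flow slot of the node: rows `x` with label, columns `y` -/
def YF (L : ℕ) (l : ℝ) (e : κ → ℤ) (K : ℤ → ℕ → ℤ → Matrix κ κ ℝ) (b : ℕ → ℤ → ℤ → κ → ℝ) :
    (k' : ℕ) → Pt → Matrix (Ix k') (Ix k') ℝ := fun k' m =>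
  hd k' * (bl k' (encR L (FB l e K (b (k' - L)) (k' - L) m.2.1)) m.2.1 m.2.2)ᵀ

/-- the injective tie of the cells of `x₀` -/
theorem tie_sum {N k : ℕ} (hk : k ≤ N) {t₀ r₁ : ℤ} {τ : ℤ → ℤ} {P : ℤ → Prop}
    (hτ : ∀ J ∈ iv (N - k) t₀, ∀ J' ∈ iv (N - k) t₀, τ J = τ J' → J = J')
    (hP : ∀ J ∈ iv (N - k) t₀, P J → τ J ∈ iv (N - k) r₁) {f : ℤ → ℝ} (hf : ∀ w, 0 ≤ f w) :
    ∑ J ∈ iv (N - k) t₀, (if P J then ∑ w ∈ iv k (τ J), f w else 0) ≤ ∑ w ∈ iv N r₁, f w := by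
  rw [← sum_cells hk r₁ f, ← sum_filter]
  set h : ℤ → ℝ := fun I => ∑ w ∈ iv k I, f w with hh
  have hh0 : ∀ I, 0 ≤ h I := fun I => sum_nonneg fun w _ => hf w
  have h1 : ∑ J ∈ (iv (N - k) t₀).filter P, h (τ J) =
      ∑ I ∈ ((iv (N - k) t₀).filter P).image τ, h I := by
    rw [sum_image]
    intro J hJ J' hJ' hJJ
    exact hτ J (mem_filter.1 hJ).1 J' (mem_filter.1 hJ').1 hJJ
  rw [h1]
  refine sum_le_sum_of_subset_of_nonneg ?_ fun I _ _ => hh0 I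
  intro I hI
  obtain ⟨J, hJ, rfl⟩ := mem_image.1 hI
  exact hP J (mem_filter.1 hJ).1 (mem_filter.1 hJ).2

/-- sums over an alive part of a plane, solved for the first index -/
theorem sum_alive {N : ℕ} {R : Pt} {k : ℕ} {c : ℤ} {s : Finset Pt} (hs : s ⊆ bx3 N R k c)
    (f : Pt → ℝ) : ∑ m ∈ s, f m = ∑ p ∈ iv (N - k) R.2.2, ∑ q ∈ iv (N - k) R.2.1,
      if (c - p - q, q, p) ∈ s then f (c - p - q, q, p) else 0 := by
  have h1 : ∑ m ∈ s, f m = ∑ m ∈ bx3 N R k c, if m ∈ s then f m else 0 := by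
    rw [← sum_filter]
    refine sum_congr ?_ fun _ _ => rfl
    ext m
    rw [mem_filter]
    exact ⟨fun h => ⟨hs h, h⟩, fun h => h.2⟩
  rw [h1, sum_bx3_32]
  refine sum_congr rfl fun p _ => sum_congr rfl fun q _ => ?_
  by_cases h2 : (c - p - q, q, p) ∈ s
  · have h3 := hs h2
    unfold bx3 at h3
    rw [mem_filter, mem_product] at h3
    rw [if_pos h3.1.1, if_pos h2]
  · rw [if_neg h2]
    split_ifs <;> rfl

variable {L N : ℕ} {e : κ → ℤ} {R : Pt} {t₀ : ℤ} {c : ℤ → ℕ → ℤ} {s : ℤ → ℕ → Finset Pt}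
  {l d e₀ sC L₀ Λ M : ℝ} {Cv b : ℤ → ℕ → ℤ → ℤ → κ → ℝ} {Z g : ℤ → ℕ → ℤ → ℤ → ℝ}
  {u v : ℤ → ℤ → κ → ℝ} {G K : ℤ → ℕ → ℤ → Matrix κ κ ℝ}

/-- **One scale, one pair of cells.** -/
theorem flowV_cell (he : Function.Injective e) (hm : ∀ i, e i ∈ lbs L) (hd : 0 < d) (he₀ : 0 < e₀)
    (hsC : 0 < sC) (hL : 0 ≤ L₀) (hΛ : 0 < Λ) (hl : 0 < l)
    {k : ℕ} (hk1 : 1 ≤ k) (hkN : k ≤ N)
    (hcl : ∀ x y, ix k x = ix k y → c x k = c y k)
    (hsl : ∀ x y, ix k x = ix k y → s x k = s y k)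
    (hbx : ∀ x₀ ∈ iv N t₀, s x₀ k ⊆ bx3 N R k (c x₀ k))
    (hinj : ∀ x ∈ iv N t₀, ∀ y ∈ iv N t₀, c x k = c y k → ix k x = ix k y)
    (hC : ∀ x₀ ∈ iv N t₀, ∀ m ∈ s x₀ k, ∀ w ∈ iv k m.1, ∀ x ∈ iv k m.2.2,
      Cv x₀ k w x = Z x₀ k x w • v x w)
    (hZ : ∀ x₀ ∈ iv N t₀, ∀ m ∈ s x₀ k, ∀ w ∈ iv k m.1, ∀ x ∈ iv k m.2.2,
      (avg (iv k (ix k x₀)) fun z => Z z k x w ^ 2) ≤ L₀)
    (hv1 : ∀ x ∈ iv N R.2.2, ∀ w ∈ iv N R.1, ∑ i, v x w i ^ 2 ≤ 1)
    (htop : ∀ x ∈ iv N R.2.2, ∀ ε : κ → ℝ,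
      (avg (iv N R.1) fun w => (∑ i, ε i * v x w i) ^ 2) ≤ Λ * ∑ i, ε i ^ 2)
    (hB : ∀ x₀ ∈ iv N t₀, ∀ m ∈ s x₀ k, ∀ y ∈ iv k m.2.1, ∀ x ∈ iv k m.2.2,
      b x₀ k y x = g x₀ k x y • u x y)
    (hu : ∀ x ∈ iv N R.2.2, ∀ y ∈ iv N R.2.1, nv (u x y) ≤ 1)
    (hU : ∀ x₀ ∈ iv N t₀, ∀ m ∈ s x₀ k,
      UnifP d (iv k m.2.2) (iv k m.2.1) (iv k (ix k x₀)) fun p => g p.2.2 k p.1 p.2.1)
    (hLB : ∀ x₀ ∈ iv N t₀, ∀ m ∈ s x₀ k,
      LineB e₀ (iv k m.2.2) (iv k m.2.1) (iv k (ix k x₀)) fun p => g p.2.2 k p.1 p.2.1)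
    (hT : ∀ x, Tr l N (G x) (K x))
    (hG : ∀ x ∈ iv N R.2.2, ∀ q ∈ iv (N - k) R.2.1,
      G x k q = ((2 : ℝ) ^ k)⁻¹ • ∑ y ∈ iv k q, vecMulVec (u x y) (u x y))
    {p q : ℤ} (hp : p ∈ iv (N - k) R.2.2) (hq : q ∈ iv (N - k) R.2.1) :
    ∑ x₀ ∈ iv N t₀, (if (c x₀ k - p - q, q, p) ∈ s x₀ k then
      (phi (gramC ((sC ^ 2)⁻¹ * (4 ^ (k + L))⁻¹)
          (bl (k + L) (encR L fun lab w x => cu e (Cv x₀ k w x) lab) (c x₀ k - p - q) p)) *
        (YF L l e K (b x₀) (k + L) (c x₀ k - p - q, q, p) *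
          (YF L l e K (b x₀) (k + L) (c x₀ k - p - q, q, p))ᵀ)).trace else 0) ≤
      2 ^ N * ((sC ^ 2)⁻¹ * 4 ^ (k + L) * (64 * (√(720000 * (d ^ 2 * e₀)) * sC * √L₀ *
        √(√(Λ / l)) * avg (iv k p) fun x => 2 * √l * ((K x k q).trace -
          (Nd.Kb (K x (k - 1) (2 * q)) (K x (k - 1) (2 * q + 1))).trace)))) := by
  -- representatives of the cells of `x₀`
  set cJ : ℤ → ℤ := fun J => c (2 ^ k * J) k with hcJ
  set al : ℤ → Prop := fun J => (cJ J - p - q, q, p) ∈ s (2 ^ k * J) k with hal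
  have hix : ∀ J z : ℤ, z ∈ iv k J → ix k z = ix k (2 ^ k * J) := by
    intro J z hz
    rw [mem_iv.1 hz]
    symm
    apply mem_iv.1
    unfold iv
    rw [mem_Ico]
    have : (0 : ℤ) < 2 ^ k := by positivity
    constructor <;> linarith
  have hcz : ∀ J z : ℤ, z ∈ iv k J → c z k = cJ J := fun J z hz => hcl _ _ (hix J z hz)
  have hsz : ∀ J z : ℤ, z ∈ iv k J → s z k = s (2 ^ k * J) k := fun J z hz => hsl _ _ (hix J z hz)
  have hzN : ∀ J ∈ iv (N - k) t₀, ∀ z ∈ iv k J, z ∈ iv N t₀ := by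
    intro J hJ z hz
    rw [mem_iv] at hJ hz ⊢
    rw [show N = k + (N - k) by omega, ← ix_ix, hz, hJ]
  have hrep : ∀ J : ℤ, (2 ^ k * J : ℤ) ∈ iv k J := by
    intro J
    unfold iv
    rw [mem_Ico]
    have : (0 : ℤ) < 2 ^ k := by positivity
    constructor <;> linarith
  -- membership
  have hpN : ∀ x ∈ iv k p, x ∈ iv N R.2.2 := by
    intro x hx
    rw [mem_iv] at hp hx ⊢
    rw [show N = k + (N - k) by omega, ← ix_ix, hx, hp]
  have hqN : ∀ y ∈ iv k q, y ∈ iv N R.2.1 := by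
    intro y hy
    rw [mem_iv] at hq hy ⊢
    rw [show N = k + (N - k) by omega, ← ix_ix, hy, hq]
  have hrR : ∀ J ∈ iv (N - k) t₀, al J → cJ J - p - q ∈ iv (N - k) R.1 := by
    intro J hJ h
    have h1 := hbx (2 ^ k * J) (hzN J hJ _ (hrep J)) h
    unfold bx3 at h1
    rw [mem_filter, mem_product] at h1
    exact h1.1.1
  have hrN : ∀ J ∈ iv (N - k) t₀, al J → ∀ w ∈ iv k (cJ J - p - q), w ∈ iv N R.1 := by
    intro J hJ h w hw
    have h1 := hrR J hJ h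
    rw [mem_iv] at h1 hw ⊢
    rw [show N = k + (N - k) by omega, ← ix_ix, hw, h1]
  -- the kernels of the nodes
  choose CC hC1 hC2 hC3 using fun z : ℤ =>
    node_glue he hm hk1 hsC (c z k - p - q) q p (Cv z k)
  -- the sum in averages
  set B' : ℤ → ℤ → ℤ → κ → ℝ := fun z y x => SfK l K k q x *ᵥ b z k y x with hB'
  have e1 : ∀ J ∈ iv (N - k) t₀, ∀ z ∈ iv k J, (if (c z k - p - q, q, p) ∈ s z k then
      (phi (gramC ((sC ^ 2)⁻¹ * (4 ^ (k + L))⁻¹)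
          (bl (k + L) (encR L fun lab w x => cu e (Cv z k w x) lab) (c z k - p - q) p)) *
        (YF L l e K (b z) (k + L) (c z k - p - q, q, p) *
          (YF L l e K (b z) (k + L) (c z k - p - q, q, p))ᵀ)).trace else 0) =
      (sC ^ 2)⁻¹ * 4 ^ (k + L) * avg (iv k q) fun y => avg (iv (k + L) (cJ J - p - q)) fun w =>
        (avg (iv k p) fun x => hs k x * (∑ i, (if al J then CC z i x w else 0) *
          (SfK l K k q x *ᵥ u x y) i) * (if al J then g z k x y else 0)) ^ 2 := by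
    intro J hJ z hz
    have e2 : ((c z k - p - q, q, p) ∈ s z k) ↔ al J := by
      rw [hcz J z hz, hsz J z hz]
    by_cases ha : al J
    · rw [if_pos (e2.2 ha)]
      simp only [if_pos ha]
      have e3 := hC3 z (B' z)
      unfold YF FB
      rw [Nat.add_sub_cancel]
      refine e3.trans ?_
      rw [hcz J z hz]
      congr 1
      refine avg_congr fun y hy => avg_congr fun w _ => ?_
      congr 1
      refine avg_congr fun x hx => ?_
      have e4 : b z k y x = g z k x y • u x y :=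
        hB z (hzN J hJ z hz) _ (e2.2 ha) y hy x hx
      have e5 : ∀ i, B' z y x i = (SfK l K k q x *ᵥ u x y) i * g z k x y := by
        intro i
        simp only [hB']
        rw [e4, mulVec_smul, Pi.smul_apply, smul_eq_mul, mul_comm]
      simp only [e5]
      rw [mul_assoc, Finset.sum_mul]
      congr 1
      exact sum_congr rfl fun i _ => by ring
    · rw [if_neg fun h => ha (e2.1 h)]
      simp only [if_neg ha]
      simp [avg]
  have e7 : ∑ x₀ ∈ iv N t₀, (if (c x₀ k - p - q, q, p) ∈ s x₀ k then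
      (phi (gramC ((sC ^ 2)⁻¹ * (4 ^ (k + L))⁻¹)
          (bl (k + L) (encR L fun lab w x => cu e (Cv x₀ k w x) lab) (c x₀ k - p - q) p)) *
        (YF L l e K (b x₀) (k + L) (c x₀ k - p - q, q, p) *
          (YF L l e K (b x₀) (k + L) (c x₀ k - p - q, q, p))ᵀ)).trace else 0) =
      2 ^ N * ((sC ^ 2)⁻¹ * 4 ^ (k + L) * avg (iv (N - k) t₀) fun J => avg (iv k J) fun z =>
        avg (iv k q) fun y => avg (iv (k + L) (cJ J - p - q)) fun w =>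
        (avg (iv k p) fun x => hs k x * (∑ i, (if al J then CC z i x w else 0) *
          (SfK l K k q x *ᵥ u x y) i) * (if al J then g z k x y else 0)) ^ 2) := by
    rw [← sum_cells hkN t₀, sum_congr rfl fun J hJ => sum_congr rfl (e1 J hJ)]
    set X : ℤ → ℤ → ℝ := fun J z => avg (iv k q) fun y => avg (iv (k + L) (cJ J - p - q)) fun w =>
        (avg (iv k p) fun x => hs k x * (∑ i, (if al J then CC z i x w else 0) *
          (SfK l K k q x *ᵥ u x y) i) * (if al J then g z k x y else 0)) ^ 2 with hX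
    have e8 : (2 : ℝ) ^ N = 2 ^ (N - k) * 2 ^ k := by
      rw [← pow_add, Nat.sub_add_cancel hkN]
    have e9 : ∀ a : ℝ, ∑ J ∈ iv (N - k) t₀, ∑ z ∈ iv k J, a * X J z =
        2 ^ N * (a * avg (iv (N - k) t₀) fun J => avg (iv k J) fun z => X J z) := by
      intro a
      rw [avg_iv]
      simp only [avg_iv, ← mul_sum]
      rw [e8]
      field_simp
    exact e9 _
  rw [e7]
  refine mul_le_mul_of_nonneg_left (mul_le_mul_of_nonneg_left ?_ (by positivity)) (by positivity)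
  have key := flowC_node (ι := ℤ) (JJ := iv (N - k) t₀) (A := iv k p) (B := iv k q)
    (Z0 := fun J => iv k J) (W3 := fun J => iv (k + L) (cJ J - p - q))
    (G := fun J pt => if al J then g pt.2.2 k pt.1 pt.2.1 else 0) (eps := hs k)
    (Cc := fun J z i x w => if al J then CC z i x w else 0)
    (v := fun J i x w => if al J then v x (ix L w) i else 0)
    (Z := fun J z x w => if al J then Z z k x (ix L w) else 0)
    (u := u) (Gm := fun x => G x k q)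
    (D := fun x => (1 / 2 : ℝ) • (G x (k - 1) (2 * q) - G x (k - 1) (2 * q + 1)))
    (K := fun x => K x k q) (Kp := fun x => K x (k - 1) (2 * q))
    (Km := fun x => K x (k - 1) (2 * q + 1)) (s := sC) (L := L₀) hd he₀ hsC.le hL hΛ hl
    ⟨_, hrep p⟩ ⟨_, hrep q⟩ (fun J hJ => ?_) (fun J hJ => ?_) (fun x _ => ?_)
    (fun J hJ z hz ψ => ?_) (fun J hJ z hz x hx ε => ?_) (fun J hJ x hx w hw => ?_)
    (fun J hJ x hx w hw => ?_) (fun x hx ε => ?_) (fun x hx y hy => hu x (hpN x hx) y (hqN y hy))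
    (fun x hx => ?_) (fun x hx => ?_)
  · exact key
  · -- uniformity
    by_cases ha : al J
    · simp only [if_pos ha]
      have h1 := hU (2 ^ k * J) (hzN J hJ _ (hrep J)) _ ha
      rwa [mem_iv.1 (hrep J)] at h1
    · simp only [if_neg ha]
      intro t
      have h1 : (avg (iv k p ×ˢ iv k q ×ˢ iv k J) fun q => (0 : ℝ) * H315.atm t q) = 0 := by
        simp [avg]
      rw [h1, abs_zero]
      have h2 := fun (Q : Finset (ℤ × ℤ)) (f : ℤ × ℤ → ℝ) => H922.n2_nonneg Q f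
      have h3 := fun (Q : Finset (ℤ × ℤ)) (f : ℤ × ℤ → ℝ) => H922.nN_nonneg Q f
      exact mul_nonneg hd.le (add_nonneg (add_nonneg
        (mul_nonneg (mul_nonneg (h3 _ _) (h3 _ _)) (h2 _ _))
        (mul_nonneg (mul_nonneg (h3 _ _) (h3 _ _)) (h2 _ _)))
        (mul_nonneg (mul_nonneg (h3 _ _) (h3 _ _)) (h2 _ _)))
  · by_cases ha : al J
    · simp only [if_pos ha]
      have h1 := hLB (2 ^ k * J) (hzN J hJ _ (hrep J)) _ ha
      rwa [mem_iv.1 (hrep J)] at h1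
    · simp only [if_neg ha]
      refine ⟨fun _ _ _ _ => ?_, fun _ _ _ _ => ?_, fun _ _ _ _ => ?_⟩ <;>
      · simp only [avg]
        simp [he₀.le]
  · unfold hs
    split_ifs <;> simp
  · -- the cap
    by_cases ha : al J
    · simp only [if_pos ha]
      have h1 := hC1 z ψ
      rwa [hcz J z hz] at h1
    · simp only [if_neg ha]
      have h1 : (avg (iv (k + L) (cJ J - p - q)) fun w => (avg (iv k p) fun x =>
          ∑ l, (0 : ℝ) * ψ l x) ^ 2) = 0 := by simp [avg]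
      rw [h1]
      exact mul_nonneg (sq_nonneg _) (avg_nonneg fun x _ => sum_nonneg fun i _ => sq_nonneg _)
  · -- domination
    by_cases ha : al J
    · simp only [if_pos ha]
      have h1 := hC2 z x hx ε
      rw [hcz J z hz] at h1
      refine h1.trans (le_of_eq (avg_congr fun w hw => ?_))
      have h2 : Cv z k (ix L w) x = Z z k x (ix L w) • v x (ix L w) := by
        have h3 : (c z k - p - q, q, p) ∈ s z k := by
          rw [hcz J z hz, hsz J z hz]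
          exact ha
        refine hC z (hzN J hJ z hz) _ h3 (ix L w) ?_ x hx
        rw [hcz J z hz]
        exact mem_iv_add.1 hw
      rw [h2, ← mul_pow, Finset.sum_mul]
      congr 1
      exact sum_congr rfl fun i _ => by rw [Pi.smul_apply, smul_eq_mul]; ring
    · simp only [if_neg ha]
      have h1 : (avg (iv (k + L) (cJ J - p - q)) fun w => (∑ l, ε l * (0 : ℝ)) ^ 2) = 0 := by
        simp [avg]
      rw [h1]
      exact avg_nonneg fun w _ => mul_nonneg (sq_nonneg _) (sq_nonneg _)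
  · by_cases ha : al J
    · simp only [if_pos ha]
      have h1 := hZ (2 ^ k * J) (hzN J hJ _ (hrep J)) _ ha (ix L w) (mem_iv_add.1 hw) x hx
      rwa [mem_iv.1 (hrep J)] at h1
    · simp only [if_neg ha]
      simp [avg, hL]
  · by_cases ha : al J
    · simp only [if_pos ha]
      exact hv1 x (hpN x hx) (ix L w) (hrN J hJ ha _ (mem_iv_add.1 hw))
    · simp only [if_neg ha]
      simp
  · -- the top potential
    have h1 : ∀ J ∈ iv (N - k) t₀, (avg (iv (k + L) (cJ J - p - q)) fun w =>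
        (∑ i, ε i * (if al J then v x (ix L w) i else 0)) ^ 2) =
        (2 ^ k : ℝ)⁻¹ * (if al J then ∑ w ∈ iv k (cJ J - p - q),
          (∑ i, ε i * v x w i) ^ 2 else 0) := by
      intro J _
      by_cases ha : al J
      · simp only [if_pos ha]
        rw [avg_iv, sum_iv_ix L k (cJ J - p - q) fun w => (∑ i, ε i * v x w i) ^ 2, pow_add]
        have : (2 : ℝ) ^ L ≠ 0 := by positivity
        field_simp
      · simp only [if_neg ha]
        simp [avg]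
    rw [avg_congr h1, avg_mul_left, avg_iv]
    have h2 := tie_sum hkN (t₀ := t₀) (r₁ := R.1) (τ := fun J => cJ J - p - q) (P := al)
      (fun J hJ J' hJ' h => ?_) hrR (f := fun w => (∑ i, ε i * v x w i) ^ 2)
      (fun w => sq_nonneg _)
    · have h3 := htop x (hpN x hx) ε
      rw [avg_iv] at h3
      refine le_trans ?_ h3
      have e8 : (2 : ℝ) ^ N = 2 ^ (N - k) * 2 ^ k := by
        rw [← pow_add, Nat.sub_add_cancel hkN]
      have h4 := mul_le_mul_of_nonneg_left h2 (show (0 : ℝ) ≤ (2 ^ N)⁻¹ by positivity)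
      refine le_trans (le_of_eq ?_) h4
      rw [e8]
      field_simp
    · have h3 : c (2 ^ k * J) k = c (2 ^ k * J') k := by
        simp only [hcJ] at h
        linarith
      have h4 := hinj _ (hzN J hJ _ (hrep J)) _ (hzN J' hJ' _ (hrep J')) h3
      rwa [mem_iv.1 (hrep J), mem_iv.1 (hrep J')] at h4
  · have h1 := (hT x).nd (k := k - 1) (by omega) q
    rwa [Nat.sub_add_cancel hk1] at h1
  · rw [PL.card_iv]
    push_cast
    exact hG x (hpN x hx) q hq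

/-- **The flow pair of the C-step, summed over `x₀` and the nodes.** -/
theorem flowV (he : Function.Injective e) (hm : ∀ i, e i ∈ lbs L) (hd : 0 < d) (he₀ : 0 < e₀)
    (hsC : 0 < sC) (hL : 0 ≤ L₀) (hΛ : 0 < Λ) (hl : 0 < l)
    (hcl : ∀ k x y, ix k x = ix k y → c x k = c y k)
    (hsl : ∀ k x y, ix k x = ix k y → s x k = s y k)
    (hbx : ∀ x₀ ∈ iv N t₀, ∀ k ∈ Icc 1 N, s x₀ k ⊆ bx3 N R k (c x₀ k))
    (hinj : ∀ k ∈ Icc 1 N, ∀ x ∈ iv N t₀, ∀ y ∈ iv N t₀, c x k = c y k → ix k x = ix k y)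
    (hC : ∀ x₀ ∈ iv N t₀, ∀ k ∈ Icc 1 N, ∀ m ∈ s x₀ k, ∀ w ∈ iv k m.1, ∀ x ∈ iv k m.2.2,
      Cv x₀ k w x = Z x₀ k x w • v x w)
    (hZ : ∀ x₀ ∈ iv N t₀, ∀ k ∈ Icc 1 N, ∀ m ∈ s x₀ k, ∀ w ∈ iv k m.1, ∀ x ∈ iv k m.2.2,
      (avg (iv k (ix k x₀)) fun z => Z z k x w ^ 2) ≤ L₀)
    (hv1 : ∀ x ∈ iv N R.2.2, ∀ w ∈ iv N R.1, ∑ i, v x w i ^ 2 ≤ 1)
    (htop : ∀ x ∈ iv N R.2.2, ∀ ε : κ → ℝ,
      (avg (iv N R.1) fun w => (∑ i, ε i * v x w i) ^ 2) ≤ Λ * ∑ i, ε i ^ 2)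
    (hB : ∀ x₀ ∈ iv N t₀, ∀ k ∈ Icc 1 N, ∀ m ∈ s x₀ k, ∀ y ∈ iv k m.2.1, ∀ x ∈ iv k m.2.2,
      b x₀ k y x = g x₀ k x y • u x y)
    (hu : ∀ x ∈ iv N R.2.2, ∀ y ∈ iv N R.2.1, nv (u x y) ≤ 1)
    (hU : ∀ x₀ ∈ iv N t₀, ∀ k ∈ Icc 1 N, ∀ m ∈ s x₀ k,
      UnifP d (iv k m.2.2) (iv k m.2.1) (iv k (ix k x₀)) fun p => g p.2.2 k p.1 p.2.1)
    (hLB : ∀ x₀ ∈ iv N t₀, ∀ k ∈ Icc 1 N, ∀ m ∈ s x₀ k,
      LineB e₀ (iv k m.2.2) (iv k m.2.1) (iv k (ix k x₀)) fun p => g p.2.2 k p.1 p.2.1)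
    (hT : ∀ x, Tr l N (G x) (K x))
    (hG : ∀ x ∈ iv N R.2.2, ∀ k ∈ Icc 1 N, ∀ q ∈ iv (N - k) R.2.1,
      G x k q = ((2 : ℝ) ^ k)⁻¹ • ∑ y ∈ iv k q, vecMulVec (u x y) (u x y))
    (hM : ∀ x ∈ iv N R.2.2, (G x N R.2.1).trace ≤ M) :
    ∑ x₀ ∈ iv N t₀, ∑ k ∈ Icc 1 N, ∑ m ∈ s x₀ k,
      (phi (gramC ((sC ^ 2)⁻¹ * (4 ^ (k + L))⁻¹)
          (bl (k + L) (encR L fun lab w x => cu e (Cv x₀ k w x) lab) m.1 m.2.2)) *
        (YF L l e K (b x₀) (k + L) m * (YF L l e K (b x₀) (k + L) m)ᵀ)).trace ≤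
      4 ^ L * 8 ^ N * (sC⁻¹ * (64 * (√(720000 * (d ^ 2 * e₀)) * √L₀ * √(√(Λ / l)) * M))) := by
  set T : ℤ → ℕ → Pt → ℝ := fun x₀ k m =>
    (phi (gramC ((sC ^ 2)⁻¹ * (4 ^ (k + L))⁻¹)
        (bl (k + L) (encR L fun lab w x => cu e (Cv x₀ k w x) lab) m.1 m.2.2)) *
      (YF L l e K (b x₀) (k + L) m * (YF L l e K (b x₀) (k + L) m)ᵀ)).trace with hTd
  set A : ℝ := √(720000 * (d ^ 2 * e₀)) * √L₀ * √(√(Λ / l)) with hA
  have hA0 : 0 ≤ A := by positivity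
  set dr : ℕ → ℤ → ℤ → ℝ := fun k q x => 2 * √l * ((K x k q).trace -
    (Nd.Kb (K x (k - 1) (2 * q)) (K x (k - 1) (2 * q + 1))).trace) with hdr
  -- one scale
  have h1 : ∀ k ∈ Icc 1 N, ∑ x₀ ∈ iv N t₀, ∑ m ∈ s x₀ k, T x₀ k m ≤
      4 ^ L * 2 ^ N * (sC⁻¹ * (64 * A)) *
        ∑ x ∈ iv N R.2.2, 2 ^ k * ∑ q ∈ iv (N - k) R.2.1, dr k q x := by
    intro k hk
    have hk1 := (mem_Icc.1 hk).1
    have hkN := (mem_Icc.1 hk).2
    calc ∑ x₀ ∈ iv N t₀, ∑ m ∈ s x₀ k, T x₀ k m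
        = ∑ p ∈ iv (N - k) R.2.2, ∑ q ∈ iv (N - k) R.2.1, ∑ x₀ ∈ iv N t₀,
            if (c x₀ k - p - q, q, p) ∈ s x₀ k then T x₀ k (c x₀ k - p - q, q, p) else 0 := by
          rw [sum_congr rfl fun x₀ hx => sum_alive (hbx x₀ hx k hk) (T x₀ k), sum_comm]
          exact sum_congr rfl fun p _ => sum_comm
      _ ≤ ∑ p ∈ iv (N - k) R.2.2, ∑ q ∈ iv (N - k) R.2.1,
            2 ^ N * ((sC ^ 2)⁻¹ * 4 ^ (k + L) * (64 * (√(720000 * (d ^ 2 * e₀)) * sC * √L₀ *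
              √(√(Λ / l)) * avg (iv k p) fun x => dr k q x))) :=
          sum_le_sum fun p hp => sum_le_sum fun q hq =>
            flowV_cell he hm hd he₀ hsC hL hΛ hl hk1 hkN (hcl k) (hsl k)
              (fun x₀ hx => hbx x₀ hx k hk) (hinj k hk) (fun x₀ hx => hC x₀ hx k hk)
              (fun x₀ hx => hZ x₀ hx k hk) hv1 htop (fun x₀ hx => hB x₀ hx k hk) hu
              (fun x₀ hx => hU x₀ hx k hk) (fun x₀ hx => hLB x₀ hx k hk) hT
              (fun x hx => hG x hx k hk) hp hq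
      _ = 4 ^ L * 2 ^ N * (sC⁻¹ * (64 * A)) *
        ∑ x ∈ iv N R.2.2, 2 ^ k * ∑ q ∈ iv (N - k) R.2.1, dr k q x := by
          have e1 : ∀ p q, 2 ^ N * ((sC ^ 2)⁻¹ * 4 ^ (k + L) * (64 * (√(720000 * (d ^ 2 * e₀)) *
              sC * √L₀ * √(√(Λ / l)) * avg (iv k p) fun x => dr k q x))) =
              4 ^ L * 2 ^ N * (sC⁻¹ * (64 * A)) * (2 ^ k * ∑ x ∈ iv k p, dr k q x) := by
            intro p q
            have ha : √(720000 * (d ^ 2 * e₀)) * sC * √L₀ * √(√(Λ / l)) = sC * A := by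
              rw [hA]; ring
            rw [ha, avg_iv, pow_add,
              show (4 : ℝ) ^ k = 2 ^ k * 2 ^ k by rw [← mul_pow]; norm_num]
            field_simp
          simp only [e1, ← mul_sum]
          congr 1
          congr 1
          rw [← sum_cells hkN R.2.2]
          refine sum_congr rfl fun p _ => ?_
          rw [sum_comm]
  have h2 : ∑ x₀ ∈ iv N t₀, ∑ k ∈ Icc 1 N, ∑ m ∈ s x₀ k, T x₀ k m ≤
      4 ^ L * 2 ^ N * (sC⁻¹ * (64 * A)) *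
        ∑ x ∈ iv N R.2.2, ∑ k ∈ Icc 1 N, 2 ^ k * ∑ q ∈ iv (N - k) R.2.1, dr k q x := by
    rw [sum_comm, sum_comm (s := iv N R.2.2), mul_sum]
    exact sum_le_sum fun k hk => h1 k hk
  -- the tree
  have h3 : ∀ x ∈ iv N R.2.2, ∑ k ∈ Icc 1 N, 2 ^ k * ∑ q ∈ iv (N - k) R.2.1, dr k q x ≤
      2 ^ N * M := by
    intro x hx
    have h4 := (tree_drop (hT x) le_rfl R.2.1).trans (hM x hx)
    rw [H420.tsum_eq] at h4
    have h5 : ∑ k ∈ Icc 1 N, (2 : ℝ) ^ k * ∑ q ∈ iv (N - k) R.2.1, dr k q x =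
        2 ^ N * ∑ k ∈ Icc 1 N, (2 ^ (N - k) : ℝ)⁻¹ *
          ∑ q ∈ Ico (2 ^ (N - k) * R.2.1) (2 ^ (N - k) * R.2.1 + 2 ^ (N - k)), dr k q x := by
      rw [mul_sum]
      refine sum_congr rfl fun k hk => ?_
      have e1 : (2 : ℝ) ^ N = 2 ^ (N - k) * 2 ^ k := by
        rw [← pow_add, Nat.sub_add_cancel (mem_Icc.1 hk).2]
      rw [e1]
      have e2 : iv (N - k) R.2.1 =
        Ico (2 ^ (N - k) * R.2.1) (2 ^ (N - k) * R.2.1 + 2 ^ (N - k)) := rfl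
      rw [e2]
      field_simp
    rw [h5]
    exact mul_le_mul_of_nonneg_left h4 (by positivity)
  have h6 : ∑ x ∈ iv N R.2.2, ∑ k ∈ Icc 1 N, 2 ^ k * ∑ q ∈ iv (N - k) R.2.1, dr k q x ≤
      4 ^ N * M := by
    refine (sum_le_sum h3).trans (le_of_eq ?_)
    rw [sum_const, PL.card_iv, nsmul_eq_mul]
    push_cast
    rw [show (4 : ℝ) ^ N = 2 ^ N * 2 ^ N by rw [← mul_pow]; norm_num]
    ring
  refine h2.trans ((mul_le_mul_of_nonneg_left h6 (by positivity)).trans (le_of_eq ?_))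
  rw [show (8 : ℝ) ^ N = 2 ^ N * 4 ^ N by rw [← mul_pow]; norm_num]
  ring

end

end Vale.Agent.P141.H633
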